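import Vale.Agent.P139.H836.Main

/-! Long-time existence with a quadratic normal form: explicit constants. -/

open Set Metric Filter Topology MeasureTheory
open scoped NNReal

namespace Vale.Agent.P139.Q836

open Vale.Agent.P139.H836 Vale.Agent.P139.A

variable {X Y : Type*} [NormedAddCommGroup X] [NormedSpace ℝ X] [CompleteSpace X]

theorem long_time2' (S : ℝ → X →L[ℝ] X) {M : ℝ} (hM : 1 ≤ M)
    (hS : ∀ t, ‖S t‖ ≤ M) (hSc : ∀ x, Continuous fun t => S t x)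
    (Q : X →L[ℝ] X →L[ℝ] X) {q K : ℝ} (hq : ‖Q‖ ≤ q) (hK0 : 0 ≤ K)
    (hK : ∀ t x y, ‖∫ s in (0 : ℝ)..t, Psi S Q s x y‖ ≤ K * ‖x‖ * ‖y‖)
    {C r0 : ℝ} (hC : 0 ≤ C) (hr0 : 0 < r0)
    {ε : ℝ} (hε : 0 < ε) (hε1 : ε ≤ 1) (hε2 : ε * (4 * M) ≤ r0) (hε3 : ε * (16 * (K + 1)) ≤ 1)
    {f : X → X} (hL : ∃ L : ℝ≥0, LipschitzOnWith L f (closedBall 0 r0))
    (hcub : ∀ x, ‖x‖ ≤ 2 * M * ε → ‖f x - Q x x‖ ≤ C * ε ^ 3)
    {x₀ : X} (hx₀ : ‖x₀‖ ≤ ε) {T : ℝ} (hT : 0 ≤ T)
    (hTε : T * ε ^ 2 * (4 * (M * C + 4 * K * M * (q * (2 * M) ^ 2 + C) + 1)) ≤ 1) :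
    ∃ y : ℝ → X, y 0 = x₀ ∧ ∀ t ∈ Icc 0 T,
      HasDerivWithinAt y (S (-t) (f (S t (y t)))) (Icc 0 T) t ∧ ‖y t‖ ≤ 2 * ε := by
  have hM0 : 0 < M := by linarith only [hM]
  have hq0 : 0 ≤ q := (norm_nonneg Q).trans hq
  set B : ℝ := q * (2 * M) ^ 2 + C with hB
  have hB0 : 0 ≤ B := by positivity
  set D : ℝ := M * C + 4 * K * M * B with hD
  have hD0 : 0 ≤ D := by positivity
  obtain ⟨L, hL⟩ := hL
  set ρ : ℝ := r0 / (2 * M) with hρ
  have hρ0 : 0 < ρ := by positivity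
  have hρ2 : 2 * ε ≤ ρ := by
    rw [hρ, le_div_iff₀ (by positivity)]
    linarith
  have hball : ∀ t, ∀ x ∈ closedBall (0 : X) (2 * ρ), S t x ∈ closedBall (0 : X) r0 := by
    intro t x hx
    rw [mem_closedBall_zero_iff] at hx ⊢
    calc ‖S t x‖ ≤ ‖S t‖ * ‖x‖ := (S t).le_opNorm x
      _ ≤ M * (2 * ρ) := by gcongr; exact hS t
      _ = r0 := by rw [hρ]; field_simp
  set g : ℝ → X → X := fun t x => if ‖x‖ ≤ 2 * ρ then S (-t) (f (S t x)) else 0 with hg
  have hgx : ∀ t, ∀ x ∈ closedBall (0 : X) (2 * ρ), g t x = S (-t) (f (S t x)) := by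
    intro t x hx
    rw [mem_closedBall_zero_iff] at hx
    simp only [hg, if_pos hx]
  obtain ⟨Mn, hMn⟩ : ∃ Mn : ℝ≥0, (Mn : ℝ) = M := ⟨⟨M, hM0.le⟩, rfl⟩
  obtain ⟨Bn, hBn⟩ : ∃ Bn : ℝ≥0, (Bn : ℝ) = M * (‖f 0‖ + L * r0) :=
    ⟨⟨M * (‖f 0‖ + L * r0), by positivity⟩, rfl⟩
  have hgL : ∀ t, LipschitzOnWith (Mn * L * Mn) (g t)
      (closedBall (0 : X) (2 * ρ)) := by
    intro t
    rw [lipschitzOnWith_iff_norm_sub_le]
    intro x hx y hy
    rw [hgx t x hx, hgx t y hy, ← map_sub]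
    calc ‖S (-t) (f (S t x) - f (S t y))‖ ≤ ‖S (-t)‖ * ‖f (S t x) - f (S t y)‖ :=
          (S (-t)).le_opNorm _
      _ ≤ M * (L * (M * ‖x - y‖)) := by
          gcongr
          · exact hS _
          · refine (hL.norm_sub_le (hball t x hx) (hball t y hy)).trans ?_
            gcongr
            rw [← map_sub]
            exact ((S t).le_opNorm _).trans (by gcongr; exact hS t)
      _ = ↑(Mn * L * Mn) * ‖x - y‖ := by
          push_cast
          rw [hMn]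
          ring
  have hfB : ∀ x ∈ closedBall (0 : X) r0, ‖f x‖ ≤ ‖f 0‖ + L * r0 := by
    intro x hx
    have h1 := hL.norm_sub_le hx (mem_closedBall_self hr0.le)
    rw [sub_zero] at h1
    have h2 : ‖f x‖ ≤ ‖f 0‖ + ‖f x - f 0‖ := by
      have := norm_add_le (f 0) (f x - f 0)
      rwa [add_sub_cancel] at this
    have h3 : (L : ℝ) * ‖x‖ ≤ L * r0 := by
      gcongr
      exact mem_closedBall_zero_iff.1 hx
    linarith
  have hfc : ContinuousOn f (closedBall 0 r0) := hL.continuousOn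
  have hgB : ∀ t, ∀ x ∈ closedBall (0 : X) (2 * ρ),
      ‖g t x‖ ≤ Bn := by
    intro t x hx
    rw [hgx t x hx, hBn]
    refine ((S (-t)).le_opNorm _).trans ?_
    gcongr
    · exact hS _
    · exact hfB _ (hball t x hx)
  have hgc : ∀ x, Continuous fun t => g t x := by
    intro x
    by_cases hx : ‖x‖ ≤ 2 * ρ
    · simp only [hg, if_pos hx]
      have h7 : Continuous fun t => f (S t x) :=
        hfc.comp_continuous (hSc x) (fun t => hball t x (mem_closedBall_zero_iff.2 hx))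
      exact (A.joint_continuous S hM0 hS hSc).comp (continuous_neg.prodMk h7)
    · simp only [hg, if_neg hx]
      exact continuous_const
  obtain ⟨y, hy0, hy⟩ := exists_cutoff g hρ0 _ _ hT (fun t _ => hgL t) (fun t _ => hgB t)
    (fun x => (hgc x).continuousOn) x₀
  have hyc : ContinuousOn y (Icc 0 T) := fun t ht => (hy t ht).continuousWithinAt
  have hfld : ∀ t x, ‖x‖ ≤ 2 * ε → cutField g ρ t x = S (-t) (f (S t x)) := by
    intro t x hx
    have h1 : ‖x‖ ≤ ρ := hx.trans hρ2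
    unfold cutField
    rw [cut_eq_one ((div_le_one hρ0).2 h1), one_smul,
      hgx t x (mem_closedBall_zero_iff.2 (by linarith))]
  have hSx : ∀ t x, ‖x‖ ≤ 2 * ε → ‖S t x‖ ≤ 2 * M * ε := by
    intro t x hx
    calc ‖S t x‖ ≤ ‖S t‖ * ‖x‖ := (S t).le_opNorm x
      _ ≤ M * (2 * ε) := by gcongr; exact hS t
      _ = 2 * M * ε := by ring
  have hfx : ∀ x, ‖x‖ ≤ 2 * M * ε → ‖f x‖ ≤ B * ε ^ 2 := by
    intro x hx
    have h1 := hcub x hx
    have h2 : ‖Q x x‖ ≤ q * (2 * M * ε) * (2 * M * ε) := by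
      refine (Q.le_opNorm₂ x x).trans ?_
      gcongr
    have h3 : ‖f x‖ ≤ ‖Q x x‖ + ‖f x - Q x x‖ := by
      have := norm_add_le (Q x x) (f x - Q x x)
      rwa [add_sub_cancel] at this
    have h4 : C * ε ^ 3 ≤ C * ε ^ 2 := by
      have : ε ^ 3 ≤ ε ^ 2 := pow_le_pow_of_le_one hε.le hε1 (by norm_num)
      gcongr
    calc ‖f x‖ ≤ q * (2 * M * ε) * (2 * M * ε) + C * ε ^ 2 := by linarith
      _ = B * ε ^ 2 := by rw [hB]; ring
  set J := Prim hM0 hS hSc Q hK with hJ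
  have hJK : ∀ t, ‖J t‖ ≤ K := fun t => norm_Prim_le hM0 hS hSc Q hK0 hK t
  -- the bootstrap
  have hboot : ∀ t ∈ Icc 0 T, ‖y t‖ < 2 * ε ∧ (0 : ℝ) < 1 := by
    refine continuity_bootstrap (f := fun t => ‖y t‖) (g := fun _ => (0 : ℝ)) hyc.norm
      continuousOn_const ?_ ⟨by rw [hy0]; linarith, one_pos⟩
    intro t ht hb
    refine ⟨?_, one_pos⟩
    have hsub : Icc 0 t ⊆ Icc 0 T := Icc_subset_Icc_right ht.2
    have hyb : ∀ s ∈ Icc 0 t, ‖y s‖ ≤ 2 * ε := fun s hs => (hb s hs).1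
    set F : ℝ → X := fun s => S (-s) (f (S s (y s))) with hF
    have hyd : ∀ s ∈ Icc 0 t, HasDerivWithinAt y (F s) (Icc 0 t) s := by
      intro s hs
      have h1 := (hy s (hsub hs)).mono hsub
      rwa [hfld s (y s) (hyb s hs)] at h1
    have hFn : ∀ s ∈ Icc 0 t, ‖F s‖ ≤ M * (B * ε ^ 2) := by
      intro s hs
      refine ((S (-s)).le_opNorm _).trans ?_
      gcongr
      · exact hS _
      · exact hfx _ (hSx s _ (hyb s hs))
    have hzd : ∀ s ∈ Icc 0 t, HasDerivWithinAt (fun s => y s - J s (y s) (y s))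
        (F s - (Psi S Q s (y s) (y s) + J s (F s) (y s) + J s (y s) (F s))) (Icc 0 t) s := by
      intro s hs
      refine (hyd s hs).sub ?_
      exact hasDeriv_apply2 (K := K) (V := 2 * ε) (fun s _ => hJK s) (D := Psi S Q s)
        (fun a b => (hasDeriv_Prim hM0 hS hSc Q hK s a b).hasDerivWithinAt) (hyd s hs)
        (hyd s hs) hyb
    have hzn : ∀ s ∈ Icc 0 t,
        ‖F s - (Psi S Q s (y s) (y s) + J s (F s) (y s) + J s (y s) (F s))‖ ≤ D * ε ^ 3 := by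
      intro s hs
      have h1 : ‖F s - Psi S Q s (y s) (y s)‖ ≤ M * (C * ε ^ 3) := by
        simp only [hF, Psi, ← map_sub]
        refine ((S (-s)).le_opNorm _).trans ?_
        gcongr
        · exact hS _
        · exact hcub _ (hSx s _ (hyb s hs))
      have h2 : ‖J s (F s) (y s)‖ ≤ K * (M * (B * ε ^ 2)) * (2 * ε) := by
        refine ((J s).le_opNorm₂ _ _).trans ?_
        gcongr
        · exact hJK s
        · exact hFn s hs
        · exact hyb s hs
      have h3 : ‖J s (y s) (F s)‖ ≤ K * (2 * ε) * (M * (B * ε ^ 2)) := by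
        refine ((J s).le_opNorm₂ _ _).trans ?_
        gcongr
        · exact hJK s
        · exact hyb s hs
        · exact hFn s hs
      calc _ = ‖(F s - Psi S Q s (y s) (y s)) - J s (F s) (y s) - J s (y s) (F s)‖ := by
            congr 1
            abel
        _ ≤ ‖F s - Psi S Q s (y s) (y s)‖ + ‖J s (F s) (y s)‖ + ‖J s (y s) (F s)‖ := by
            refine (norm_sub_le _ _).trans ?_
            gcongr
            exact norm_sub_le _ _
        _ ≤ M * (C * ε ^ 3) + K * (M * (B * ε ^ 2)) * (2 * ε) +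
            K * (2 * ε) * (M * (B * ε ^ 2)) := by gcongr
        _ = D * ε ^ 3 := by rw [hD]; ring
    have hmv := (convex_Icc 0 t).norm_image_sub_le_of_norm_hasDerivWithin_le hzd hzn
      (left_mem_Icc.2 ht.1) (right_mem_Icc.2 ht.1)
    have hJ0 : J 0 (y 0) (y 0) = 0 := by
      rw [hJ, Prim_apply, intervalIntegral.integral_same]
    rw [hJ0, sub_zero, hy0, sub_zero, Real.norm_of_nonneg ht.1] at hmv
    have h1 : ‖J t (y t) (y t)‖ ≤ K * (2 * ε) * (2 * ε) := by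
      refine ((J t).le_opNorm₂ _ _).trans ?_
      have := hyb t (right_mem_Icc.2 ht.1)
      gcongr
      exact hJK t
    have h2 : ‖y t‖ ≤ ‖y t - J t (y t) (y t) - x₀‖ + ‖J t (y t) (y t)‖ + ‖x₀‖ := by
      have h3 : y t = (y t - J t (y t) (y t) - x₀) + J t (y t) (y t) + x₀ := by abel
      conv_lhs => rw [h3]
      exact norm_add₃_le
    have h3 : D * ε ^ 3 * t ≤ ε / 4 := by
      have h4 : t * ε ^ 2 * (4 * (D + 1)) ≤ 1 := by
        refine le_trans ?_ hTε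
        gcongr
        exact ht.2
      have h5 : D * (t * ε ^ 2) ≤ 1 / 4 := by
        have : 0 ≤ t * ε ^ 2 := mul_nonneg ht.1 (by positivity)
        nlinarith
      calc D * ε ^ 3 * t = (D * (t * ε ^ 2)) * ε := by ring
        _ ≤ 1 / 4 * ε := by gcongr
        _ = ε / 4 := by ring
    have h4 : K * (2 * ε) * (2 * ε) ≤ ε / 4 := by
      have h5 : 16 * K * ε ≤ 1 := by nlinarith
      calc K * (2 * ε) * (2 * ε) = (16 * K * ε) * ε / 4 := by ring
        _ ≤ 1 * ε / 4 := by gcongr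
        _ = ε / 4 := by ring
    change ‖y t‖ < 2 * ε
    linarith
  refine ⟨y, hy0, fun t ht => ⟨?_, (hboot t ht).1.le⟩⟩
  have h1 := hy t ht
  rwa [hfld t (y t) (hboot t ht).1.le] at h1


end Vale.Agent.P139.Q836
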