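import Vale.Agent.P139.H836.Main

/-! Quantitative form: statements of the two blocks. -/

open Set Metric Filter Topology MeasureTheory ProbabilityTheory
open scoped NNReal ENNReal

namespace Vale.Agent.P139.Q836

open Vale.Agent.P139.A Vale.Agent.P139.A.WA Vale.Agent.P139.H836

/-- Long-time existence with constants that are powers of one parameter `R`. -/
def QLong (d k m : ℕ) : Prop :=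
  ∃ A : ℝ, 0 < A ∧ ∃ N : ℕ, ∀ R : ℝ, 1 ≤ R → ∀ z : ℂ, R⁻¹ ≤ ‖z‖ → ‖z‖ ≤ R →
    Prb.Gp d (m * ‖z‖ ^ (2 * m)) R⁻¹ → ∀ a : WA d k, coef a 0 = z →
    ‖a - z • (1 : WA d k)‖ * (A * R ^ N) ≤ 1 → ∀ T : ℝ, 0 ≤ T →
    T * ‖a - z • (1 : WA d k)‖ ^ 2 * (A * R ^ N) ≤ 1 →
    ∃ u : ℝ → WA d k, u 0 = a ∧ IsSolution d (2 * m + 1) k T (fun t => coef (u t))

/-- The gap is at least a power of `1 / T` with probability `1 - O(1 / T)`. -/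
def QGap (d m : ℕ) : Prop :=
  ∃ C : ℝ, 0 ≤ C ∧ ∃ N : ℕ, ∀ T : ℕ, 2 ≤ T →
    stdComplexGaussian {z : ℂ | ¬ Prb.Gp d (m * ‖z‖ ^ (2 * m)) ((T : ℝ) ^ N)⁻¹} ≤
      ENNReal.ofReal (C / T)

/-- Integer polynomials of degree at most two and height at most `H` are at least `η` at `μ`. -/
def Hyp (μ η H : ℝ) : Prop :=
  ∀ a b c : ℤ, (a ≠ 0 ∨ b ≠ 0 ∨ c ≠ 0) → |(a : ℝ)| ≤ H → |(b : ℝ)| ≤ H → |(c : ℝ)| ≤ H →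
    η ≤ |a * μ ^ 2 + b * μ + c|

/-- QG1 (deterministic). -/
def QG1 (d : ℕ) : Prop :=
  ∀ A0 : ℕ, ∃ N1 : ℕ, ∀ A1 : ℕ, ∃ N2 : ℕ, ∀ A2 : ℕ, ∃ A3 : ℕ, ∀ T : ℕ, 2 ≤ T → ∀ μ : ℝ,
    0 < μ → μ ≤ T → Hyp μ ((T : ℝ) ^ A0)⁻¹ ((T : ℝ) ^ 2) → Hyp μ ((T : ℝ) ^ A1)⁻¹ ((T : ℝ) ^ N1) →
    Hyp μ ((T : ℝ) ^ A2)⁻¹ ((T : ℝ) ^ N2) → Prb.Gp d μ ((T : ℝ) ^ A3)⁻¹

/-- QG2 (probability). -/
def QG2 (m : ℕ) : Prop :=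
  ∀ N : ℕ, ∃ C : ℝ, 0 ≤ C ∧ ∃ A : ℕ, ∀ T : ℕ, 2 ≤ T →
    stdComplexGaussian {z : ℂ | ¬ Hyp (m * ‖z‖ ^ (2 * m)) ((T : ℝ) ^ A)⁻¹ ((T : ℝ) ^ N)} ≤
      ENNReal.ofReal (C / T)

end Vale.Agent.P139.Q836
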