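import Vale.Agent.P139.Q836.Defs

/-! Quantitative probability bound for the lifespan: composition. -/

set_option autoImplicit false

open Set Metric Filter Topology MeasureTheory ProbabilityTheory
open scoped NNReal ENNReal ComplexConjugate

namespace Vale.Agent.P139.Q836

open Vale.Agent.P139.A Vale.Agent.P139.A.WA Vale.Agent.P139.H836

variable {d k : ℕ}

/-- The datum as an element of the weighted algebra. -/
theorem exists_WA (k : ℕ) {γ : Lat d → ℂ} (hs : Summable fun n => ‖γ n‖ * (W (2 * d) n)⁻¹)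
    {α : ℝ} (hαk : ((k + 2 * d : ℕ) : ℝ) ≤ α) :
    ∃ a : WA d k, coef a = (fun n => γ n * ((Real.sqrt (1 + sqNorm n) ^ (-α) : ℝ) : ℂ)) ∧
      coef a 0 = γ 0 ∧ ‖a - γ 0 • (1 : WA d k)‖ ≤
        (2 : ℝ) ^ (k + 2 * d) * (∑' n, ‖γ n‖ * (W (2 * d) n)⁻¹) * (2 : ℝ) ^ (-α / 2) := by
  have hterm : ∀ n, 0 ≤ ‖γ n‖ * (W (2 * d) n)⁻¹ := fun n =>
    mul_nonneg (norm_nonneg _) (inv_pos.2 (W_pos n)).le
  set a₀ : Lat d → ℂ := fun n => γ n * ((Real.sqrt (1 + sqNorm n) ^ (-α) : ℝ) : ℂ) with ha₀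
  have hnorm : ∀ n, ‖a₀ n‖ = ‖γ n‖ * Real.sqrt (1 + sqNorm n) ^ (-α) := fun n => by
    simp only [ha₀, norm_mul, Complex.norm_real]
    rw [Real.norm_of_nonneg (Real.rpow_nonneg (Real.sqrt_nonneg _) _)]
  have hbound : ∀ n, n ≠ 0 → W k n * ‖a₀ n‖ ≤
      (2 : ℝ) ^ (k + 2 * d) * (2 : ℝ) ^ (-α / 2) * (‖γ n‖ * (W (2 * d) n)⁻¹) := by
    intro n hn
    rw [hnorm]
    calc W k n * (‖γ n‖ * Real.sqrt (1 + sqNorm n) ^ (-α))
        = ‖γ n‖ * (W k n * Real.sqrt (1 + sqNorm n) ^ (-α)) := by ring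
      _ ≤ ‖γ n‖ * ((2 : ℝ) ^ (k + 2 * d) * (2 : ℝ) ^ (-α / 2) * (W (2 * d) n)⁻¹) := by
          exact mul_le_mul_of_nonneg_left (weight_datum_le hαk hn) (norm_nonneg _)
      _ = _ := by ring
  have hz0 : a₀ 0 = γ 0 := by simp [ha₀, sqNorm_zero]
  have hsum1 : Summable fun n => W k n * ‖(if n = 0 then 0 else a₀ n : ℂ)‖ := by
    refine Summable.of_nonneg_of_le (fun n => mul_nonneg (W_pos n).le (norm_nonneg _)) (fun n => ?_)
      (hs.mul_left ((2 : ℝ) ^ (k + 2 * d) * (2 : ℝ) ^ (-α / 2)))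
    by_cases hn : n = 0
    · simp only [hn, if_true, norm_zero, mul_zero]
      exact mul_nonneg (by positivity) (hterm 0)
    · simp only [hn, if_false]
      exact hbound n hn
  let b : WA d k := mk _ hsum1
  have hb : ∀ n, coef b n = if n = 0 then 0 else a₀ n := fun n => coef_mk _ hsum1 n
  have hbn : ‖b‖ ≤ (2 : ℝ) ^ (k + 2 * d) * (∑' n, ‖γ n‖ * (W (2 * d) n)⁻¹) *
      (2 : ℝ) ^ (-α / 2) := by
    rw [norm_eq]
    have h3 : ∀ n, W k n * ‖coef b n‖ ≤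
        (2 : ℝ) ^ (k + 2 * d) * (2 : ℝ) ^ (-α / 2) * (‖γ n‖ * (W (2 * d) n)⁻¹) := by
      intro n
      rw [hb]
      by_cases hn : n = 0
      · simp only [hn, if_true, norm_zero, mul_zero]
        exact mul_nonneg (by positivity) (hterm 0)
      · simp only [hn, if_false]
        exact hbound n hn
    refine (b.summable.tsum_le_tsum h3 (hs.mul_left _)).trans (le_of_eq ?_)
    rw [tsum_mul_left]
    ring
  refine ⟨γ 0 • 1 + b, ?_, ?_, ?_⟩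
  · funext n
    simp only [coef_add, coef_smul, coef_one, hb]
    by_cases hn : n = 0
    · subst hn; simp [hz0]
    · simp [hn]
  · simp [coef_add, coef_smul, coef_one, hb]
  · simpa using hbn

/-- Deterministic lower bound of the lifespan. -/
theorem det {m : ℕ} (hQ : QLong d k m) (N0 : ℕ) : ∃ B : ℝ, 0 < B ∧ ∃ N3 : ℕ, ∀ T : ℕ, 2 ≤ T →
    ∀ γ : Lat d → ℂ, (Summable fun n => ‖γ n‖ * (W (2 * d) n)⁻¹) →
    ∑' n, ‖γ n‖ * (W (2 * d) n)⁻¹ ≤ T → Prb.Gp d (m * ‖γ 0‖ ^ (2 * m)) ((T : ℝ) ^ N0)⁻¹ →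
    ((T : ℝ) ^ N0)⁻¹ ≤ ‖γ 0‖ → ∀ α : ℝ, ((k + 2 * d : ℕ) : ℝ) ≤ α → ∀ s : ℝ, 0 ≤ s →
    B * (T : ℝ) ^ N3 ≤ (2 : ℝ) ^ (α / 2) → s * (B * (T : ℝ) ^ N3) ≤ (2 : ℝ) ^ α →
    ENNReal.ofReal s ≤ lifespan d (2 * m + 1) k
      (fun n => γ n * ((Real.sqrt (1 + sqNorm n) ^ (-α) : ℝ) : ℂ)) := by
  obtain ⟨A, hA, N, H⟩ := hQ
  set P : ℝ := (2 : ℝ) ^ (k + 2 * d) with hP
  have hP1 : 1 ≤ P := one_le_pow₀ (by norm_num)
  refine ⟨P ^ 2 * A, by positivity, (N0 + 1) * N + 2, ?_⟩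
  intro T hT γ hs hS hG hz α hα s hs0 h1 h2
  have hT1 : (1 : ℝ) ≤ T := by exact_mod_cast (by omega : 1 ≤ T)
  obtain ⟨a, ha, ha0, hax⟩ := exists_WA k hs hα
  set x : ℝ := ‖a - γ 0 • (1 : WA d k)‖ with hx
  have hx0 : 0 ≤ x := norm_nonneg _
  have hxT : x ≤ P * T * (2 : ℝ) ^ (-α / 2) := hax.trans (by gcongr)
  set R : ℝ := (T : ℝ) ^ (N0 + 1) with hR
  have hR1 : 1 ≤ R := one_le_pow₀ hT1
  have hR0 : 0 < R := by linarith
  have hRl : R⁻¹ ≤ ((T : ℝ) ^ N0)⁻¹ := by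
    apply inv_anti₀ (by positivity)
    exact pow_le_pow_right₀ hT1 (by omega)
  have hγT : ‖γ 0‖ ≤ T := by
    refine le_trans ?_ hS
    have := hs.le_tsum 0 (fun n _ => mul_nonneg (norm_nonneg _) (inv_pos.2 (W_pos n)).le)
    rwa [W_zero, inv_one, mul_one] at this
  have hγR : ‖γ 0‖ ≤ R := hγT.trans (by
    rw [hR, pow_succ]
    exact le_mul_of_one_le_left (by linarith) (one_le_pow₀ hT1))
  have hpow : (2 : ℝ) ^ (-α / 2) * (2 : ℝ) ^ (α / 2) = 1 := by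
    rw [← Real.rpow_add (by norm_num)]
    have : -α / 2 + α / 2 = 0 := by ring
    rw [this, Real.rpow_zero]
  have hpow2 : ((2 : ℝ) ^ (-α / 2)) ^ 2 * (2 : ℝ) ^ α = 1 := by
    rw [sq, ← Real.rpow_add (by norm_num), ← Real.rpow_add (by norm_num)]
    have : -α / 2 + -α / 2 + α = 0 := by ring
    rw [this, Real.rpow_zero]
  have hRN : R ^ N = (T : ℝ) ^ ((N0 + 1) * N) := by rw [hR, ← pow_mul]
  have hX0 : (0 : ℝ) < (2 : ℝ) ^ (-α / 2) := by positivity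
  obtain ⟨u, hu0, hu⟩ := H R hR1 (γ 0) (hRl.trans hz) hγR
    (fun a b ha hb hab => hRl.trans (hG a b ha hb hab)) a ha0 (by
      calc x * (A * R ^ N) ≤ (P * T * (2 : ℝ) ^ (-α / 2)) * (A * R ^ N) := by gcongr
        _ ≤ (P * T * (2 : ℝ) ^ (-α / 2)) * (A * R ^ N) * (P * T) := by
            refine le_mul_of_one_le_right (by positivity) ?_
            nlinarith
        _ = (2 : ℝ) ^ (-α / 2) * (P ^ 2 * A * (T : ℝ) ^ ((N0 + 1) * N + 2)) := by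
            rw [hRN]; ring
        _ ≤ (2 : ℝ) ^ (-α / 2) * (2 : ℝ) ^ (α / 2) := by gcongr
        _ = 1 := hpow) s hs0 (by
      calc s * x ^ 2 * (A * R ^ N) ≤ s * (P * T * (2 : ℝ) ^ (-α / 2)) ^ 2 * (A * R ^ N) := by
            gcongr
        _ = ((2 : ℝ) ^ (-α / 2)) ^ 2 * (s * (P ^ 2 * A * (T : ℝ) ^ ((N0 + 1) * N + 2))) := by
            rw [hRN]; ring
        _ ≤ ((2 : ℝ) ^ (-α / 2)) ^ 2 * (2 : ℝ) ^ α := by gcongr
        _ = 1 := hpow2)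
  unfold lifespan
  refine le_iSup₂_of_le (NNReal.mk _ hs0) ⟨fun t => coef (u t), hu, by simp only [hu0, ha]⟩ ?_
  rw [ENNReal.ofReal, Real.toNNReal_of_nonneg hs0]

/-- The gap and the size of the mean, in probability. -/
def QGz (d m : ℕ) : Prop :=
  ∃ C : ℝ, 0 ≤ C ∧ ∃ N : ℕ, ∀ T : ℕ, 2 ≤ T →
    stdComplexGaussian {z : ℂ | ‖z‖ ≤ T ∧ ¬ (Prb.Gp d (m * ‖z‖ ^ (2 * m)) ((T : ℝ) ^ N)⁻¹ ∧
      ((T : ℝ) ^ N)⁻¹ ≤ ‖z‖)} ≤ ENNReal.ofReal (C / T)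

/-- Markov bound for the weighted sum. -/
theorem sum_tail (d : ℕ) : ∃ C : ℝ, 0 ≤ C ∧ ∀ {Ω : Type} [MeasurableSpace Ω] (P : Measure Ω)
    (g : Lat d → Ω → ℂ), (∀ n, Measurable (g n)) → (∀ n, P.map (g n) = stdComplexGaussian) →
    ∀ T : ℝ, 0 < T → P {ω | ¬ ((Summable fun n => ‖g n ω‖ * (W (2 * d) n)⁻¹) ∧
      ∑' n, ‖g n ω‖ * (W (2 * d) n)⁻¹ ≤ T)} ≤ ENNReal.ofReal (C / T) := by
  set c : ℝ≥0∞ := (∫⁻ z, ‖z‖ₑ ∂stdComplexGaussian) *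
    ∑' n : Lat d, ENNReal.ofReal (W (2 * d) n)⁻¹ with hc
  have hcf : c ≠ ∞ := ENNReal.mul_ne_top std_moment.ne (summable_W_inv d).tsum_ofReal_ne_top
  refine ⟨c.toReal, ENNReal.toReal_nonneg, ?_⟩
  intro Ω _ P g hm hg T hT
  have hmeas : ∀ n, Measurable fun ω => ‖g n ω‖ₑ * ENNReal.ofReal (W (2 * d) n)⁻¹ := fun n => by
    have := hm n
    fun_prop
  have h1 : ∫⁻ ω, ∑' n, ‖g n ω‖ₑ * ENNReal.ofReal (W (2 * d) n)⁻¹ ∂P = c := by
    rw [lintegral_tsum fun n => (hmeas n).aemeasurable]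
    have h2 : ∀ n, ∫⁻ ω, ‖g n ω‖ₑ * ENNReal.ofReal (W (2 * d) n)⁻¹ ∂P =
        (∫⁻ z, ‖z‖ₑ ∂stdComplexGaussian) * ENNReal.ofReal (W (2 * d) n)⁻¹ := by
      intro n
      rw [lintegral_mul_const _ (by have := hm n; fun_prop), ← hg n,
        lintegral_map (by fun_prop) (hm n)]
    simp_rw [h2]
    rw [ENNReal.tsum_mul_left]
  have hsub : {ω | ¬ ((Summable fun n => ‖g n ω‖ * (W (2 * d) n)⁻¹) ∧
      ∑' n, ‖g n ω‖ * (W (2 * d) n)⁻¹ ≤ T)} ⊆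
      {ω | ENNReal.ofReal T ≤ ∑' n, ‖g n ω‖ₑ * ENNReal.ofReal (W (2 * d) n)⁻¹} := by
    intro ω hω
    by_contra hcon
    simp only [mem_setOf_eq, not_le] at hcon
    apply hω
    have e : (∑' n, ‖g n ω‖ₑ * ENNReal.ofReal (W (2 * d) n)⁻¹) =
        ∑' n, ENNReal.ofReal (‖g n ω‖ * (W (2 * d) n)⁻¹) := tsum_congr fun n => by
      rw [ENNReal.ofReal_mul (norm_nonneg _), ofReal_norm]
    have hnn : ∀ n, 0 ≤ ‖g n ω‖ * (W (2 * d) n)⁻¹ := fun n =>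
      mul_nonneg (norm_nonneg _) (inv_pos.2 (W_pos n)).le
    have h4 : ∑' n, ENNReal.ofReal (‖g n ω‖ * (W (2 * d) n)⁻¹) ≠ ∞ := by
      rw [← e]
      exact (hcon.trans ENNReal.ofReal_lt_top).ne
    have hsm : Summable fun n => ‖g n ω‖ * (W (2 * d) n)⁻¹ :=
      (ENNReal.summable_toReal h4).congr fun n => ENNReal.toReal_ofReal (hnn n)
    refine ⟨hsm, ?_⟩
    rw [e, ← ENNReal.ofReal_tsum_of_nonneg hnn hsm] at hcon
    exact (ENNReal.ofReal_lt_ofReal_iff hT).1 hcon |>.le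
  refine (measure_mono hsub).trans ?_
  have hM : Measurable fun ω => ∑' n, ‖g n ω‖ₑ * ENNReal.ofReal (W (2 * d) n)⁻¹ :=
    Measurable.tsum hmeas
  have h5 := meas_ge_le_lintegral_div (μ := P) hM.aemeasurable
    (ε := ENNReal.ofReal T) (by simpa using hT) ENNReal.ofReal_ne_top
  rw [h1] at h5
  refine h5.trans (le_of_eq ?_)
  rw [ENNReal.ofReal_div_of_pos hT, ENNReal.ofReal_toReal hcf]

/-- **The probability of a short lifespan.** -/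
theorem prob_of {m : ℕ} (hQ : QLong d k m) (hG : QGz d m) {θ : ℝ} (hθ : θ < 1) :
    ∃ κ : ℝ, 0 < κ ∧ ∃ α₁ : ℝ, ∀ {Ω : Type} [MeasurableSpace Ω] (P : Measure Ω)
      (g : Lat d → Ω → ℂ), (∀ n, Measurable (g n)) → (∀ n, P.map (g n) = stdComplexGaussian) →
      ∀ α : ℝ, α₁ ≤ α →
        P {ω | lifespan d (2 * m + 1) k (datum g α ω) < ENNReal.ofReal ((2 : ℝ) ^ (θ * α))} ≤
          ENNReal.ofReal ((2 : ℝ) ^ (-(κ * α))) := by
  obtain ⟨C1, hC1, HS⟩ := sum_tail d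
  obtain ⟨C2, hC2, N0, HG⟩ := hG
  obtain ⟨B, hB, N3, HD⟩ := det hQ N0
  set η : ℝ := min (1 - θ) (1 / 2) with hη
  have hη0 : 0 < η := lt_min (by linarith) (by norm_num)
  have hη1 : η ≤ 1 - θ := min_le_left _ _
  have hη2 : η ≤ 1 / 2 := min_le_right _ _
  set b : ℝ := η / (2 * (N3 + 1)) with hb
  have hb0 : 0 < b := by positivity
  have hlim : ∀ c : ℝ, 0 < c → Tendsto (fun α : ℝ => (2 : ℝ) ^ (c * α)) atTop atTop := by
    intro c hc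
    exact (tendsto_rpow_atTop_of_base_gt_one 2 (by norm_num)).comp
      (tendsto_id.const_mul_atTop hc)
  obtain ⟨α₂, h2⟩ := eventually_atTop.1 ((hlim b hb0).eventually_ge_atTop 2)
  obtain ⟨α₃, h3⟩ := eventually_atTop.1 ((hlim (η / 2) (by positivity)).eventually_ge_atTop B)
  obtain ⟨α₄, h4⟩ := eventually_atTop.1 ((hlim (b / 2) (by positivity)).eventually_ge_atTop
    (2 * (C1 + C2)))
  refine ⟨b / 2, by positivity, max (max α₂ α₃) (max α₄ (max ((k + 2 * d : ℕ) : ℝ) 0)), ?_⟩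
  intro Ω _ P g hm hg α hα
  have a2 := h2 α ((le_max_left _ _).trans ((le_max_left _ _).trans hα))
  have a3 := h3 α ((le_max_right _ _).trans ((le_max_left _ _).trans hα))
  have a4 := h4 α ((le_max_left _ _).trans ((le_max_right _ _).trans hα))
  have a5 : ((k + 2 * d : ℕ) : ℝ) ≤ α :=
    (le_max_left _ _).trans ((le_max_right _ _).trans ((le_max_right _ _).trans hα))
  have a6 : 0 ≤ α :=
    (le_max_right _ _).trans ((le_max_right _ _).trans ((le_max_right _ _).trans hα))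
  set T : ℕ := ⌊(2 : ℝ) ^ (b * α)⌋₊ with hT
  have hT2 : 2 ≤ T := Nat.le_floor (by exact_mod_cast a2)
  have hTu : (T : ℝ) ≤ (2 : ℝ) ^ (b * α) := Nat.floor_le (by positivity)
  have hTl : (2 : ℝ) ^ (b * α) / 2 ≤ T := by
    have h := Nat.lt_floor_add_one ((2 : ℝ) ^ (b * α))
    rw [← hT] at h
    have hT2' : (2 : ℝ) ≤ T := by exact_mod_cast hT2
    linarith
  have hT0 : (0 : ℝ) < T := by exact_mod_cast (by omega : 0 < T)
  -- the size condition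
  have hBT : B * (T : ℝ) ^ N3 ≤ (2 : ℝ) ^ (η * α) := by
    have e1 : (T : ℝ) ^ N3 ≤ (2 : ℝ) ^ (η / 2 * α) := by
      calc (T : ℝ) ^ N3 ≤ ((2 : ℝ) ^ (b * α)) ^ N3 := by gcongr
        _ = (2 : ℝ) ^ (b * α * N3) := by rw [Real.rpow_mul_natCast (by norm_num)]
        _ ≤ (2 : ℝ) ^ (η / 2 * α) := by
            apply Real.rpow_le_rpow_of_exponent_le (by norm_num)
            have : b * N3 ≤ η / 2 := by
              rw [hb, div_mul_eq_mul_div, div_le_div_iff₀ (by positivity) (by norm_num)]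
              nlinarith
            nlinarith
    calc B * (T : ℝ) ^ N3 ≤ (2 : ℝ) ^ (η / 2 * α) * (2 : ℝ) ^ (η / 2 * α) := by gcongr
      _ = (2 : ℝ) ^ (η * α) := by
          rw [← Real.rpow_add (by norm_num)]
          congr 1
          ring
  have hsub : {ω | lifespan d (2 * m + 1) k (datum g α ω) < ENNReal.ofReal ((2 : ℝ) ^ (θ * α))} ⊆
      {ω | ¬ ((Summable fun n => ‖g n ω‖ * (W (2 * d) n)⁻¹) ∧
        ∑' n, ‖g n ω‖ * (W (2 * d) n)⁻¹ ≤ T)} ∪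
      (g 0) ⁻¹' {z : ℂ | ‖z‖ ≤ T ∧ ¬ (Prb.Gp d (m * ‖z‖ ^ (2 * m)) ((T : ℝ) ^ N0)⁻¹ ∧
        ((T : ℝ) ^ N0)⁻¹ ≤ ‖z‖)} := by
    intro ω hω
    by_contra hcon
    rw [mem_union, not_or] at hcon
    obtain ⟨c1, c2⟩ := hcon
    rw [mem_setOf_eq, not_not] at c1
    rw [mem_preimage, mem_setOf_eq] at c2
    have hgT : ‖g 0 ω‖ ≤ T := by
      refine le_trans ?_ c1.2
      have := c1.1.le_tsum 0 (fun n _ => mul_nonneg (norm_nonneg _) (inv_pos.2 (W_pos n)).le)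
      rwa [W_zero, inv_one, mul_one] at this
    obtain ⟨c3, c4⟩ : Prb.Gp d (m * ‖g 0 ω‖ ^ (2 * m)) ((T : ℝ) ^ N0)⁻¹ ∧
        ((T : ℝ) ^ N0)⁻¹ ≤ ‖g 0 ω‖ := by
      by_contra h
      exact c2 ⟨hgT, h⟩
    have := HD T hT2 (fun n => g n ω) c1.1 c1.2 c3 c4 α a5 ((2 : ℝ) ^ (θ * α)) (by positivity)
      (hBT.trans (Real.rpow_le_rpow_of_exponent_le (by norm_num) (by nlinarith))) (by
        calc (2 : ℝ) ^ (θ * α) * (B * (T : ℝ) ^ N3) ≤ (2 : ℝ) ^ (θ * α) * (2 : ℝ) ^ (η * α) := by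
              gcongr
          _ = (2 : ℝ) ^ (θ * α + η * α) := by rw [← Real.rpow_add (by norm_num)]
          _ ≤ (2 : ℝ) ^ α := by
              apply Real.rpow_le_rpow_of_exponent_le (by norm_num)
              nlinarith)
    exact absurd hω (not_lt.2 this)
  refine (measure_mono hsub).trans ((measure_union_le _ _).trans ?_)
  have e1 := HS P g hm hg T hT0
  have e2 : P ((g 0) ⁻¹' {z : ℂ | ‖z‖ ≤ T ∧ ¬ (Prb.Gp d (m * ‖z‖ ^ (2 * m)) ((T : ℝ) ^ N0)⁻¹ ∧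
        ((T : ℝ) ^ N0)⁻¹ ≤ ‖z‖)}) ≤ ENNReal.ofReal (C2 / T) := by
    refine (Measure.le_map_apply (hm 0).aemeasurable _).trans ?_
    rw [hg 0]
    exact HG T hT2
  refine (add_le_add e1 e2).trans ?_
  rw [← ENNReal.ofReal_add (by positivity) (by positivity), ← add_div]
  apply ENNReal.ofReal_le_ofReal
  rw [div_le_iff₀ hT0]
  have e3 : (2 : ℝ) ^ (-(b / 2 * α)) * (2 : ℝ) ^ (b * α) = (2 : ℝ) ^ (b / 2 * α) := by
    rw [← Real.rpow_add (by norm_num)]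
    congr 1
    ring
  calc C1 + C2 ≤ (2 : ℝ) ^ (b / 2 * α) / 2 := by linarith
    _ = (2 : ℝ) ^ (-(b / 2 * α)) * ((2 : ℝ) ^ (b * α) / 2) := by rw [← e3]; ring
    _ ≤ (2 : ℝ) ^ (-(b / 2 * α)) * T := by gcongr

end Vale.Agent.P139.Q836
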