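import Vale.Agent.P139.Q836.Fin2

/-! From the two gap statements to the probabilistic gap. -/

set_option autoImplicit false

open Set Metric Filter Topology MeasureTheory ProbabilityTheory
open scoped NNReal ENNReal

namespace Vale.Agent.P139.Q836

open Vale.Agent.P139.A Vale.Agent.P139.A.WA Vale.Agent.P139.H836

variable {d k : ℕ}

theorem qgz {m : ℕ} (hm : 1 ≤ m) (h1 : QG1 d) (h2 : QG2 m) : QGz d m := by
  obtain ⟨C0, hC0, A0, P0⟩ := h2 2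
  obtain ⟨N1, h1⟩ := h1 A0
  obtain ⟨C1, hC1, A1, P1⟩ := h2 N1
  obtain ⟨N2, h1⟩ := h1 A1
  obtain ⟨C2, hC2, A2, P2⟩ := h2 N2
  obtain ⟨A3, h1⟩ := h1 A2
  refine ⟨C0 + C1 + C2, by positivity, 3 * m * (A3 + A0) + m, fun T hT => ?_⟩
  have hm0 : (1 : ℝ) ≤ m := by exact_mod_cast hm
  have hT1 : (1 : ℝ) ≤ T := by exact_mod_cast (by omega : 1 ≤ T)
  have hT0 : (0 : ℝ) < T := by linarith
  have hT2 : (2 : ℝ) ≤ T := by exact_mod_cast hT
  set T' : ℕ := T ^ (3 * m) with hT'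
  have hTT' : T ≤ T' := by
    rw [hT']
    exact Nat.le_self_pow (by omega) T
  have hT'2 : 2 ≤ T' := hT.trans hTT'
  have hT'r : (T' : ℝ) = (T : ℝ) ^ (3 * m) := by rw [hT']; push_cast; rfl
  have hT'1 : (1 : ℝ) ≤ T' := by exact_mod_cast (by omega : 1 ≤ T')
  have hmT : (m : ℝ) ≤ (T : ℝ) ^ m := by
    have e1 : (m : ℝ) ≤ 2 ^ m := by exact_mod_cast (Nat.lt_two_pow_self (n := m)).le
    exact e1.trans (pow_le_pow_left₀ (by norm_num) hT2 m)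
  have hsub : {z : ℂ | ‖z‖ ≤ T ∧ ¬ (Prb.Gp d (m * ‖z‖ ^ (2 * m))
      ((T : ℝ) ^ (3 * m * (A3 + A0) + m))⁻¹ ∧ ((T : ℝ) ^ (3 * m * (A3 + A0) + m))⁻¹ ≤ ‖z‖)} ⊆
      ({z : ℂ | ¬ Hyp (m * ‖z‖ ^ (2 * m)) ((T' : ℝ) ^ A0)⁻¹ ((T' : ℝ) ^ 2)} ∪
      {z : ℂ | ¬ Hyp (m * ‖z‖ ^ (2 * m)) ((T' : ℝ) ^ A1)⁻¹ ((T' : ℝ) ^ N1)}) ∪
      {z : ℂ | ¬ Hyp (m * ‖z‖ ^ (2 * m)) ((T' : ℝ) ^ A2)⁻¹ ((T' : ℝ) ^ N2)} := by
    rintro z ⟨hz, hbad⟩
    by_contra hcon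
    rw [mem_union, mem_union, not_or, not_or] at hcon
    obtain ⟨⟨g0, g1⟩, g2⟩ := hcon
    rw [mem_ofPred_eq, not_not] at g0 g1 g2
    apply hbad
    have hz0 : 0 ≤ ‖z‖ := norm_nonneg z
    have hμ0 : 0 ≤ (m : ℝ) * ‖z‖ ^ (2 * m) := by positivity
    have hlow : ((T' : ℝ) ^ A0)⁻¹ ≤ (m : ℝ) * ‖z‖ ^ (2 * m) := by
      have := g0 0 1 0 (by simp) (by simp) (by simpa using one_le_pow₀ (n := 2) hT'1) (by simp)
      simpa [abs_of_nonneg hz0] using this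
    have hpos : 0 < ((T' : ℝ) ^ A0)⁻¹ := by positivity
    have hμT : (m : ℝ) * ‖z‖ ^ (2 * m) ≤ T' := by
      rw [hT'r]
      calc (m : ℝ) * ‖z‖ ^ (2 * m) ≤ (T : ℝ) ^ m * (T : ℝ) ^ (2 * m) := by gcongr
        _ = (T : ℝ) ^ (3 * m) := by rw [← pow_add]; congr 1; ring
    refine ⟨fun a b ha hb hab => le_trans ?_
      (h1 T' hT'2 _ (hpos.trans_le hlow) hμT g0 g1 g2 a b ha hb hab), ?_⟩
    · apply inv_anti₀ (by positivity)
      rw [hT'r, ← pow_mul]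
      exact pow_le_pow_right₀ hT1 (by nlinarith)
    · rcases le_or_gt 1 ‖z‖ with h | h
      · refine le_trans ?_ h
        apply inv_le_one_of_one_le₀
        exact one_le_pow₀ hT1
      · have e1 : ‖z‖ ^ (2 * m) ≤ ‖z‖ := by
          calc ‖z‖ ^ (2 * m) ≤ ‖z‖ ^ 1 := pow_le_pow_of_le_one hz0 h.le (by omega)
            _ = ‖z‖ := pow_one _
        have e2 : ((T' : ℝ) ^ A0)⁻¹ ≤ (T : ℝ) ^ m * ‖z‖ :=
          hlow.trans (by gcongr)
        have e3 : ((T : ℝ) ^ (3 * m * (A3 + A0) + m))⁻¹ ≤ ((T : ℝ) ^ m)⁻¹ * ((T' : ℝ) ^ A0)⁻¹ := by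
          rw [← mul_inv, hT'r, ← pow_mul, ← pow_add]
          apply inv_anti₀ (by positivity)
          exact pow_le_pow_right₀ hT1 (by nlinarith)
        refine e3.trans ?_
        rw [inv_mul_le_iff₀ (by positivity)]
        exact e2
  refine (measure_mono hsub).trans ((measure_union_le _ _).trans
    ((add_le_add (measure_union_le _ _) le_rfl).trans ?_))
  have hle : ∀ C : ℝ, 0 ≤ C → ENNReal.ofReal (C / T') ≤ ENNReal.ofReal (C / T) := fun C hC => by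
    apply ENNReal.ofReal_le_ofReal
    have : (T : ℝ) ≤ T' := by exact_mod_cast hTT'
    gcongr
  refine (add_le_add (add_le_add ((P0 T' hT'2).trans (hle _ hC0)) ((P1 T' hT'2).trans (hle _ hC1)))
    ((P2 T' hT'2).trans (hle _ hC2))).trans (le_of_eq ?_)
  rw [← ENNReal.ofReal_add (by positivity) (by positivity),
    ← ENNReal.ofReal_add (by positivity) (by positivity)]
  congr 1
  ring

end Vale.Agent.P139.Q836
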