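import Vale.Agent.P139.H836.Main

/-! The bound of the primitive of the quadratic part: explicit constant. -/

open Set Metric Filter Topology MeasureTheory
open scoped NNReal ComplexConjugate

namespace Vale.Agent.P139.Q836

open Vale.Agent.P139.A Vale.Agent.P139.A.WA Vale.Agent.P139.H836 Vale.Agent.P139.H836.Prb

variable {d k : ℕ}

/-- The constant of the bound of the primitive. -/
noncomputable def Kp (m : ℕ) (c μ dl : ℝ) : ℝ :=
  |c ^ (2 * m - 1)| * (|(m : ℝ) * (m + 1) / 2| * (4 * (32 / dl * (2 + μ) * (2 + μ) * (2 + μ))) +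
    |(m : ℝ) * (m + 1) / 2| * (4 * (32 / dl * (2 + μ) * (2 + μ) * (2 + μ)) +
      4 * (32 / dl * (2 + μ) * (2 + μ) * (2 + μ))) +
    |(m : ℝ) * (m - 1) / 2| * (4 * (32 / dl * (2 + μ) * (2 + μ) * (2 + μ))))

/-- The bound of the primitive for two single modes. -/
lemma single_bound' (m : ℕ) (c : ℝ) {μ dl : ℝ} (hμ : 0 ≤ μ) (hdl : 0 < dl) (hg : Gp d μ dl) :
    ∀ (t : ℝ) (a b : Lat d) (ξ η : ℂ),
      ‖∫ s in (0 : ℝ)..t, Psi (S k hμ) (Qd m c) s (sg a ξ : WA d k) (sg b η)‖ ≤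
        Kp m c μ dl * (W k a * ‖ξ‖) * (W k b * ‖η‖) := by
  set A : ℝ := m * (m + 1) / 2 with hA
  set D : ℝ := m * (m - 1) / 2 with hD
  set K0 : ℝ := 4 * (32 / dl * (2 + μ) * (2 + μ) * (2 + μ)) with hK0
  have hK00 : 0 ≤ K0 := by positivity
  intro t a b ξ η
  rw [show Kp m c μ dl = |c ^ (2 * m - 1)| * (|A| * K0 + |A| * (K0 + K0) + |D| * K0) from rfl]
  have hR : 0 ≤ |c ^ (2 * m - 1)| * (|A| * K0 + |A| * (K0 + K0) + |D| * K0) * (W k a * ‖ξ‖) *
      (W k b * ‖η‖) := by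
    have := (W_pos (k := k) a).le
    have := (W_pos (k := k) b).le
    positivity
  have e : ∀ s, Psi (S k hμ) (Qd m c) s (sg a ξ : WA d k) (sg b η) =
      -((c ^ (2 * m - 1)) • ((A • Tm hμ s (Pz (S k hμ s (sg a ξ)) * Pz (S k hμ s (sg b η))) +
        A • (Tm hμ s (Pz (S k hμ s (sg a ξ)) * WA.conjL (Pz (S k hμ s (sg b η)))) +
          Tm hμ s (WA.conjL (Pz (S k hμ s (sg a ξ))) * Pz (S k hμ s (sg b η))))) +
        D • Tm hμ s (WA.conjL (Pz (S k hμ s (sg a ξ))) *
          WA.conjL (Pz (S k hμ s (sg b η)))))) := by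
    intro s
    rw [Psi, Qd_apply, Qf, map_neg, map_smul]
    congr 2
    rw [← Tm_smul, ← Tm_add, ← Tm_smul, ← Tm_add, ← Tm_smul, ← Tm_add, Tm]
  simp_rw [e]
  by_cases ha : a = 0
  · subst ha
    have h0 : ∀ s, Pz (S k hμ s (sg 0 ξ : WA d k)) = 0 := fun s => by
      rw [S_sg, neg_zero, map_add, Pz_sg_zero, Pz_sg_zero, add_zero]
    have h1 : ∀ s, Tm hμ s (0 : WA d k) = 0 := fun s => by simp [Tm]
    simp only [h0, map_zero, zero_mul, h1, smul_zero, add_zero, neg_zero,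
      intervalIntegral.integral_zero, norm_zero]
    exact hR
  by_cases hb : b = 0
  · subst hb
    have h0 : ∀ s, Pz (S k hμ s (sg 0 η : WA d k)) = 0 := fun s => by
      rw [S_sg, neg_zero, map_add, Pz_sg_zero, Pz_sg_zero, add_zero]
    have h1 : ∀ s, Tm hμ s (0 : WA d k) = 0 := fun s => by simp [Tm]
    simp only [h0, map_zero, mul_zero, h1, smul_zero, add_zero, neg_zero,
      intervalIntegral.integral_zero, norm_zero]
    exact hR
  have hX := Sp_S (k := k) hμ ha ξ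
  have hY := Sp_S (k := k) hμ hb η
  have P1 := Sp.prod hμ hdl hg ha hb hX hY
  have P2 := Sp.prod hμ hdl hg ha hb hX hY.conjL
  have P3 := Sp.prod hμ hdl hg ha hb hX.conjL hY
  have P4 := Sp.prod hμ hdl hg ha hb hX.conjL hY.conjL
  have H := ((((P1.smul A).add ((P2.add P3).smul A)).add (P4.smul D)).smul
    (c ^ (2 * m - 1))).neg
  refine (H.2 t).trans (le_of_eq ?_)
  rw [hK0]
  ring

/-- **The bound of the primitive.** -/
theorem primBound' (m : ℕ) (c : ℝ) {μ dl : ℝ} (hμ : 0 ≤ μ) (hdl : 0 < dl) (hg : Gp d μ dl)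
    (t : ℝ) (x y : WA d k) :
    ‖∫ s in (0 : ℝ)..t, Psi (S k hμ) (Qd m c) s x y‖ ≤ Kp m c μ dl * ‖x‖ * ‖y‖ := by
  have hK := single_bound' (k := k) m c hμ hdl hg
  set K := Kp m c μ dl with hKdef
  have hM : (0 : ℝ) < 2 * (2 + μ) := by positivity
  have hS := fun t => norm_S_le (d := d) (k := k) hμ t
  have hSc := fun a => continuous_S (d := d) (k := k) hμ a
  -- crude bound
  have hP : ∀ s (x y : WA d k), ‖Psi (S k hμ) (Qd m c) s x y‖ ≤
      ((2 * (2 + μ)) ^ 3 * ‖(Qd m c : WA d k →L[ℝ] WA d k →L[ℝ] WA d k)‖) * ‖x‖ * ‖y‖ := by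
    intro s x y
    unfold Psi
    calc ‖S k hμ (-s) (Qd m c (S k hμ s x) (S k hμ s y))‖
        ≤ (2 * (2 + μ)) * ‖Qd m c (S k hμ s x) (S k hμ s y)‖ :=
          ((S k hμ (-s)).le_opNorm _).trans (by gcongr; exact hS _)
      _ ≤ (2 * (2 + μ)) * (‖(Qd m c : WA d k →L[ℝ] WA d k →L[ℝ] WA d k)‖ * ‖S k hμ s x‖ *
            ‖S k hμ s y‖) := by
          gcongr
          exact ContinuousLinearMap.le_opNorm₂ _ _ _
      _ ≤ (2 * (2 + μ)) * (‖(Qd m c : WA d k →L[ℝ] WA d k →L[ℝ] WA d k)‖ *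
            ((2 * (2 + μ)) * ‖x‖) * ((2 * (2 + μ)) * ‖y‖)) := by
          gcongr
          · exact ((S k hμ s).le_opNorm _).trans (by gcongr; exact hS _)
          · exact ((S k hμ s).le_opNorm _).trans (by gcongr; exact hS _)
      _ = _ := by ring
  have hc := fun x y => continuous_Psi (X := WA d k) hM hS hSc (Qd m c) x y
  have hI : ∀ x y : WA d k, ‖∫ s in (0 : ℝ)..t, Psi (S k hμ) (Qd m c) s x y‖ ≤
      (((2 * (2 + μ)) ^ 3 * ‖(Qd m c : WA d k →L[ℝ] WA d k →L[ℝ] WA d k)‖) * |t|) * ‖x‖ * ‖y‖ := by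
    intro x y
    have := intervalIntegral.norm_integral_le_of_norm_le_const (a := (0 : ℝ)) (b := t)
      (fun s _ => hP s x y)
    rw [sub_zero] at this
    exact this.trans (le_of_eq (by ring))
  -- the primitive as a linear map in each argument
  let B : WA d k →ₗ[ℝ] WA d k →ₗ[ℝ] WA d k :=
    LinearMap.mk₂ ℝ (fun x y => ∫ s in (0 : ℝ)..t, Psi (S k hμ) (Qd m c) s x y)
      (fun x x' y => by
        rw [← intervalIntegral.integral_add ((hc _ _).intervalIntegrable _ _)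
          ((hc _ _).intervalIntegrable _ _)]
        simp only [Psi, map_add, _root_.add_apply])
      (fun r x y => by
        rw [← intervalIntegral.integral_smul]
        simp only [Psi, map_smul, _root_.smul_apply])
      (fun x y y' => by
        rw [← intervalIntegral.integral_add ((hc _ _).intervalIntegrable _ _)
          ((hc _ _).intervalIntegrable _ _)]
        simp only [Psi, map_add])
      (fun r x y => by
        rw [← intervalIntegral.integral_smul]
        simp only [Psi, map_smul])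
  let L := B.mkContinuous₂ _ hI
  have hL : ∀ x y, L x y = ∫ s in (0 : ℝ)..t, Psi (S k hμ) (Qd m c) s x y := fun x y => rfl
  rw [← hL]
  -- extension in the second argument, for a single mode in the first
  have h1 : ∀ (a : Lat d) (ξ : ℂ), ‖L (sg a ξ) y‖ ≤ (K * (W k a * ‖ξ‖)) * ‖y‖ := by
    intro a ξ
    refine bound_of_sg (L (sg a ξ)) (fun b η => ?_) y
    rw [hL]
    exact hK t a b ξ η
  have h2 : ‖L.flip y x‖ ≤ (K * ‖y‖) * ‖x‖ := by
    refine bound_of_sg (L.flip y) (fun a ξ => ?_) x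
    rw [ContinuousLinearMap.flip_apply]
    exact (h1 a ξ).trans (le_of_eq (by ring))
  rw [ContinuousLinearMap.flip_apply] at h2
  exact h2.trans (le_of_eq (by ring))


end Vale.Agent.P139.Q836
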