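import Vale.Agent.P139.Q836.Defs
import Vale.Agent.P139.H212.NR

/-! QG1: polynomial lower bound for the three-wave divisors. -/

open Set

namespace Vale.Agent.P139.Q836

open Vale.Agent.P139.A Vale.Agent.P139.H212

section

variable {t μ : ℝ}

lemma inv_pow_anti (ht : 2 ≤ t) {i j : ℕ} (h : i ≤ j) : (t ^ j)⁻¹ ≤ (t ^ i)⁻¹ :=
  inv_anti₀ (by positivity) (pow_le_pow_right₀ (by linarith) h)

lemma inv_pow_le_one (ht : 2 ≤ t) (i : ℕ) : (t ^ i)⁻¹ ≤ 1 :=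
  inv_le_one_of_one_le₀ (one_le_pow₀ (by linarith))

lemma inv_pow_succ_le (ht : 2 ≤ t) (i j : ℕ) : (t ^ (i + j))⁻¹ ≤ (t ^ i)⁻¹ / 2 ^ j := by
  rw [pow_add, mul_inv, div_eq_mul_inv]
  have h1 : ((2 : ℝ) ^ j) ≤ t ^ j := pow_le_pow_left₀ (by norm_num) ht j
  gcongr

lemma om_le (hμ : 0 ≤ μ) (j : ℕ) : om μ j ≤ j + μ := by
  have := gg_nonneg hμ j
  unfold gg at this
  linarith

lemma le_om (hμ : 0 ≤ μ) (j : ℕ) : (j : ℝ) ≤ om μ j := by
  apply le_of_sq_le_sq _ (om_nonneg _)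
  rw [om_sq hμ]
  have : (0 : ℝ) ≤ j := Nat.cast_nonneg j
  nlinarith

lemma lev0 (ht : 2 ≤ t) (hμ : 0 < μ) (hμt : μ ≤ t) {A0 : ℕ}
    (h : Hyp μ (t ^ A0)⁻¹ (t ^ 2)) (k : ℤ) : (t ^ A0)⁻¹ ≤ |(k : ℝ) + μ| := by
  by_cases hk : |(k : ℝ)| ≤ t ^ 2
  · have h1 := h 0 1 k (by simp) (by simp; positivity)
      (by push_cast; rw [abs_one]; nlinarith) hk
    simp only [Int.cast_zero, zero_mul, Int.cast_one, one_mul, zero_add] at h1
    rwa [add_comm] at h1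
  · push Not at hk
    have h1 := inv_pow_le_one ht A0
    have h2 : |(k : ℝ)| - |(-μ)| ≤ |(k : ℝ) - (-μ)| := abs_sub_abs_le_abs_sub _ _
    rw [abs_neg, abs_of_pos hμ, sub_neg_eq_add] at h2
    nlinarith

lemma lev1 (ht : 2 ≤ t) (hμ : 0 < μ) (hμt : μ ≤ t) {n0 A1 : ℕ} (hn0 : 1 ≤ n0)
    (h : Hyp μ (t ^ A1)⁻¹ (t ^ (2 * n0 + 4))) {a : ℕ} (ha : 1 ≤ a) (ha' : (a : ℝ) ≤ t ^ n0)
    (k : ℤ) : (t ^ (A1 + n0 + 3))⁻¹ ≤ |(k : ℝ) + om μ a| := by
  have ha1 : (1 : ℝ) ≤ a := by exact_mod_cast ha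
  have hX : t ≤ t ^ n0 := by
    calc t = t ^ 1 := (pow_one t).symm
      _ ≤ t ^ n0 := pow_le_pow_right₀ (by linarith) hn0
  have hX0 : 0 < t ^ n0 := by positivity
  have hom := om_le hμ.le a
  have hom0 := om_nonneg (μ := μ) a
  have e2 : t ^ (n0 + 2) = t ^ n0 * t ^ 2 := pow_add _ _ _
  have e3 : t ^ (n0 + 3) = t ^ (n0 + 2) * t := by rw [← pow_succ]
  have h4 : 4 * t ^ n0 ≤ t ^ (n0 + 2) := by
    rw [e2]
    have : 4 ≤ t ^ 2 := by nlinarith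
    nlinarith
  by_cases hk : |(k : ℝ)| ≤ t ^ (n0 + 2)
  · have hk2 : (k : ℝ) ^ 2 ≤ t ^ (2 * n0 + 4) := by
      rw [← sq_abs]
      calc |(k : ℝ)| ^ 2 ≤ (t ^ (n0 + 2)) ^ 2 := by gcongr
        _ = t ^ (2 * n0 + 4) := by rw [← pow_mul]; congr 1; ring
    have hle : t ^ n0 ≤ t ^ (2 * n0 + 4) := pow_le_pow_right₀ (by linarith) (by omega)
    have ha2 : (a : ℝ) ^ 2 ≤ t ^ (2 * n0 + 4) := by
      calc (a : ℝ) ^ 2 ≤ (t ^ n0) ^ 2 := by gcongr
        _ = t ^ (2 * n0) := by rw [← pow_mul]; congr 1; ring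
        _ ≤ t ^ (2 * n0 + 4) := pow_le_pow_right₀ (by linarith) (by omega)
    have h2a : 2 * (a : ℝ) ≤ t ^ (2 * n0 + 4) := by
      have : t ^ (n0 + 2) ≤ t ^ (2 * n0 + 4) := pow_le_pow_right₀ (by linarith) (by omega)
      linarith
    have h1 := h 0 (2 * a) (a ^ 2 - k ^ 2) (Or.inr (Or.inl (by positivity)))
      (by simp; positivity)
      (by push_cast; rw [abs_of_nonneg (by positivity)]; exact h2a)
      (by
        push_cast
        rw [abs_le]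
        have := sq_nonneg (k : ℝ)
        have := sq_nonneg (a : ℝ)
        constructor <;> linarith)
    have e1 : ((0 : ℤ) : ℝ) * μ ^ 2 + ((2 * a : ℤ) : ℝ) * μ + ((a ^ 2 - k ^ 2 : ℤ) : ℝ)
        = ((k : ℝ) + om μ a) * (om μ a - k) := by
      push_cast
      have := om_sq hμ.le a
      linear_combination (-1 : ℝ) * this
    rw [e1, abs_mul] at h1
    have h5 : |om μ a - k| ≤ t ^ (n0 + 3) := by
      have : |om μ a - k| ≤ |om μ a| + |(k : ℝ)| := abs_sub _ _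
      rw [abs_of_nonneg hom0] at this
      have h6 : t ^ (n0 + 2) * 2 ≤ t ^ (n0 + 3) := by
        rw [e3]
        have : 0 < t ^ (n0 + 2) := by positivity
        nlinarith
      linarith
    have h7 : (t ^ A1)⁻¹ ≤ |(k : ℝ) + om μ a| * t ^ (n0 + 3) :=
      h1.trans (mul_le_mul_of_nonneg_left h5 (abs_nonneg _))
    have e4 : (t ^ (A1 + n0 + 3))⁻¹ = (t ^ A1)⁻¹ / t ^ (n0 + 3) := by
      rw [add_assoc, pow_add, mul_inv, div_eq_mul_inv]
    rw [e4, div_le_iff₀ (by positivity)]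
    exact h7
  · push Not at hk
    have h1 := inv_pow_le_one ht (A1 + n0 + 3)
    have h2 : |(k : ℝ)| - |(-om μ a)| ≤ |(k : ℝ) - (-om μ a)| := abs_sub_abs_le_abs_sub _ _
    rw [abs_neg, abs_of_nonneg hom0, sub_neg_eq_add] at h2
    nlinarith

/-- The polynomial of a triple. -/
lemma triple_ne {a b c : ℤ} (ha : 1 ≤ a) (hb : 1 ≤ b) (hc : 1 ≤ c)
    (h2 : 16 * a * b - 4 * (c - a - b) ^ 2 = 0)
    (h0 : 4 * a ^ 2 * b ^ 2 - (c ^ 2 - a ^ 2 - b ^ 2) ^ 2 = 0) : False := by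
  have h3 : (c - a - b) ^ 2 = 4 * a * b := by linarith
  have h4 : (c - a - b) * (c + a + b) * ((c - a + b) * (c + a - b)) = 0 := by
    linear_combination (-1 : ℤ) * h0
  have hab : 0 < a * b := by positivity
  rcases mul_eq_zero.1 h4 with h | h
  · rcases mul_eq_zero.1 h with h | h
    · rw [h] at h3
      linarith
    · linarith
  · rcases mul_eq_zero.1 h with h | h
    · have e : c = a - b := by linarith
      rw [e] at h3
      have : (4 * b) * (b - a) = 0 := by linear_combination h3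
      rcases mul_eq_zero.1 this with h | h <;> linarith
    · have e : c = b - a := by linarith
      rw [e] at h3
      have : (4 * a) * (a - b) = 0 := by linear_combination h3
      rcases mul_eq_zero.1 this with h | h <;> linarith

lemma coef_bd {X a b c : ℝ} (hX1 : 1 ≤ X) (ha0 : 0 ≤ a) (hb0 : 0 ≤ b) (hc0 : 0 ≤ c)
    (ha' : a ≤ X) (hb' : b ≤ X) (hc' : c ≤ X) :
    |16 * a * b - 4 * (c - a - b) ^ 2| ≤ 16 * X ^ 2 ∧
    |8 * a * b * (a + b) - 4 * (c ^ 2 - a ^ 2 - b ^ 2) * (c - a - b)| ≤ 32 * X ^ 3 ∧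
    |4 * a ^ 2 * b ^ 2 - (c ^ 2 - a ^ 2 - b ^ 2) ^ 2| ≤ 4 * X ^ 4 := by
  have hX0 : 0 < X := by linarith
  have hab : a * b ≤ X ^ 2 := by
    calc a * b ≤ X * X := by gcongr
      _ = X ^ 2 := by ring
  have hab0 : 0 ≤ a * b := by positivity
  have he1 : |c - a - b| ≤ 2 * X := by
    rw [abs_le]; constructor <;> linarith
  have h1 : c ^ 2 ≤ X ^ 2 := by gcongr
  have h2 : a ^ 2 ≤ X ^ 2 := by gcongr
  have h3 : b ^ 2 ≤ X ^ 2 := by gcongr
  have s1 := sq_nonneg a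
  have s2 := sq_nonneg b
  have s3 := sq_nonneg c
  have he0 : |c ^ 2 - a ^ 2 - b ^ 2| ≤ 2 * X ^ 2 := by
    rw [abs_le]; constructor <;> linarith
  refine ⟨?_, ?_, ?_⟩
  · have h1 : (c - a - b) ^ 2 ≤ 4 * X ^ 2 := by
      rw [← sq_abs]
      calc |c - a - b| ^ 2 ≤ (2 * X) ^ 2 := by gcongr
        _ = 4 * X ^ 2 := by ring
    have h2 := sq_nonneg (c - a - b)
    rw [abs_le]
    constructor <;> linarith
  · have h1 : |(c ^ 2 - a ^ 2 - b ^ 2) * (c - a - b)| ≤ 4 * X ^ 3 := by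
      rw [abs_mul]
      calc |c ^ 2 - a ^ 2 - b ^ 2| * |c - a - b| ≤ (2 * X ^ 2) * (2 * X) := by gcongr
        _ = 4 * X ^ 3 := by ring
    have h2 : a * b * (a + b) ≤ 2 * X ^ 3 := by
      calc a * b * (a + b) ≤ X ^ 2 * (X + X) := by gcongr
        _ = 2 * X ^ 3 := by ring
    have h3 : 0 ≤ a * b * (a + b) := by positivity
    rw [abs_le] at h1 ⊢
    constructor <;> linarith [h1.1, h1.2]
  · have h1 : (c ^ 2 - a ^ 2 - b ^ 2) ^ 2 ≤ 4 * X ^ 4 := by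
      rw [← sq_abs]
      calc |c ^ 2 - a ^ 2 - b ^ 2| ^ 2 ≤ (2 * X ^ 2) ^ 2 := by gcongr
        _ = 4 * X ^ 4 := by ring
    have h2 := sq_nonneg (c ^ 2 - a ^ 2 - b ^ 2)
    have h3 : a ^ 2 * b ^ 2 ≤ X ^ 4 := by
      calc a ^ 2 * b ^ 2 = (a * b) ^ 2 := by ring
        _ ≤ (X ^ 2) ^ 2 := by gcongr
        _ = X ^ 4 := by ring
    have h4 : 0 ≤ a ^ 2 * b ^ 2 := by positivity
    rw [abs_le]
    constructor <;> linarith

lemma fac_bd {X A B C : ℝ} (hX0 : 0 < X) (na : 0 ≤ A) (nb : 0 ≤ B) (nc : 0 ≤ C)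
    (hA : A ≤ 2 * X) (hB : B ≤ 2 * X) (hC : C ≤ 2 * X) :
    |(A + B + C) * (2 * A * B + (C ^ 2 - A ^ 2 - B ^ 2))| ≤ 96 * X ^ 3 := by
  have h1 : A + B + C ≤ 6 * X := by linarith
  have h2 : |2 * A * B + (C ^ 2 - A ^ 2 - B ^ 2)| ≤ 16 * X ^ 2 := by
    have k1 : A ^ 2 ≤ 4 * X ^ 2 := by
      calc A ^ 2 ≤ (2 * X) ^ 2 := by gcongr
        _ = 4 * X ^ 2 := by ring
    have k2 : B ^ 2 ≤ 4 * X ^ 2 := by
      calc B ^ 2 ≤ (2 * X) ^ 2 := by gcongr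
        _ = 4 * X ^ 2 := by ring
    have k3 : C ^ 2 ≤ 4 * X ^ 2 := by
      calc C ^ 2 ≤ (2 * X) ^ 2 := by gcongr
        _ = 4 * X ^ 2 := by ring
    have k4 : A * B ≤ 4 * X ^ 2 := by
      calc A * B ≤ (2 * X) * (2 * X) := by gcongr
        _ = 4 * X ^ 2 := by ring
    have k5 : 0 ≤ A * B := by positivity
    have := sq_nonneg A
    have := sq_nonneg B
    have := sq_nonneg C
    rw [abs_le]
    constructor <;> linarith
  rw [abs_mul, abs_of_nonneg (by positivity : 0 ≤ A + B + C)]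
  calc (A + B + C) * |2 * A * B + (C ^ 2 - A ^ 2 - B ^ 2)| ≤ (6 * X) * (16 * X ^ 2) := by gcongr
    _ = 96 * X ^ 3 := by ring

lemma poly_id {μ a b c A B C : ℝ} (qa : A ^ 2 = a * (a + 2 * μ)) (qb : B ^ 2 = b * (b + 2 * μ))
    (qc : C ^ 2 = c * (c + 2 * μ)) :
    (16 * a * b - 4 * (c - a - b) ^ 2) * μ ^ 2
      + (8 * a * b * (a + b) - 4 * (c ^ 2 - a ^ 2 - b ^ 2) * (c - a - b)) * μ
      + (4 * a ^ 2 * b ^ 2 - (c ^ 2 - a ^ 2 - b ^ 2) ^ 2)
      = (A + B - C) * ((A + B + C) * (2 * A * B + (C ^ 2 - A ^ 2 - B ^ 2))) := by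
  have e2 : (A + B - C) * ((A + B + C) * (2 * A * B + (C ^ 2 - A ^ 2 - B ^ 2)))
      = 4 * A ^ 2 * B ^ 2 - (C ^ 2 - A ^ 2 - B ^ 2) ^ 2 := by ring
  rw [e2, qa, qb, qc]
  ring

lemma lev2 (ht : 2 ≤ t) (hμ : 0 < μ) (hμt : μ ≤ t) {s A2 : ℕ} (hs : 1 ≤ s)
    (h : Hyp μ (t ^ A2)⁻¹ (t ^ (4 * s + 6))) {a b c : ℕ} (ha : 1 ≤ a) (hb : 1 ≤ b) (hc : 1 ≤ c)
    (ha' : (a : ℝ) ≤ t ^ s) (hb' : (b : ℝ) ≤ t ^ s) (hc' : (c : ℝ) ≤ t ^ s) :
    (t ^ (A2 + (3 * s + 7)))⁻¹ ≤ |om μ a + om μ b - om μ c| := by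
  obtain ⟨X, hX⟩ : ∃ X : ℝ, X = t ^ s := ⟨_, rfl⟩
  rw [← hX] at ha' hb' hc'
  have hX2 : t ≤ X := by
    rw [hX]
    calc t = t ^ 1 := (pow_one t).symm
      _ ≤ t ^ s := pow_le_pow_right₀ (by linarith) hs
  have hX0 : 0 < X := by linarith
  have hX1 : 1 ≤ X := by linarith
  have e4 : t ^ (4 * s + 6) = X ^ 4 * t ^ 6 := by rw [hX, ← pow_mul, ← pow_add]; congr 1; ring
  have e5 : t ^ (3 * s + 7) = X ^ 3 * t ^ 7 := by rw [hX, ← pow_mul, ← pow_add]; congr 1; ring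
  have ht6 : 64 ≤ t ^ 6 := by
    calc (64 : ℝ) = 2 ^ 6 := by norm_num
      _ ≤ t ^ 6 := pow_le_pow_left₀ (by norm_num) ht 6
  have ht7 : 128 ≤ t ^ 7 := by
    calc (128 : ℝ) = 2 ^ 7 := by norm_num
      _ ≤ t ^ 7 := pow_le_pow_left₀ (by norm_num) ht 7
  have x4 : 0 < X ^ 4 := by positivity
  have x3 : 0 < X ^ 3 := by positivity
  have hH : 64 * X ^ 4 ≤ t ^ (4 * s + 6) := by
    rw [e4]
    nlinarith
  have x24 : X ^ 2 ≤ X ^ 4 := pow_le_pow_right₀ hX1 (by norm_num)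
  have x34 : X ^ 3 ≤ X ^ 4 := pow_le_pow_right₀ hX1 (by norm_num)
  obtain ⟨c1, c2, c3⟩ := coef_bd hX1 (Nat.cast_nonneg a) (Nat.cast_nonneg b) (Nat.cast_nonneg c)
    ha' hb' hc'
  have hP := h (16 * a * b - 4 * (c - a - b) ^ 2)
    (8 * a * b * (a + b) - 4 * (c ^ 2 - a ^ 2 - b ^ 2) * (c - a - b))
    (4 * a ^ 2 * b ^ 2 - (c ^ 2 - a ^ 2 - b ^ 2) ^ 2)
    (by
      by_contra hcon
      push Not at hcon
      exact triple_ne (by exact_mod_cast ha) (by exact_mod_cast hb) (by exact_mod_cast hc)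
        hcon.1 hcon.2.2)
    (by push_cast; linarith) (by push_cast; linarith) (by push_cast; linarith)
  have ua := om_le hμ.le a
  have ub := om_le hμ.le b
  have uc := om_le hμ.le c
  have e1 := poly_id (om_sq hμ.le a) (om_sq hμ.le b) (om_sq hμ.le c)
  push_cast at hP
  rw [e1, abs_mul] at hP
  have hbd := (fac_bd hX0 (om_nonneg (μ := μ) a) (om_nonneg (μ := μ) b) (om_nonneg (μ := μ) c)
    (by linarith) (by linarith) (by linarith)).trans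
      (show 96 * X ^ 3 ≤ t ^ (3 * s + 7) by rw [e5]; nlinarith)
  have h7 : (t ^ A2)⁻¹ ≤ |om μ a + om μ b - om μ c| * t ^ (3 * s + 7) :=
    hP.trans (mul_le_mul_of_nonneg_left hbd (abs_nonneg _))
  rw [pow_add, mul_inv, ← div_eq_mul_inv, div_le_iff₀ (by positivity)]
  exact h7

/-- The gap for `a ≤ b`. -/
lemma gap_le {T : ℕ} (hT : 2 ≤ T) (hμ : 0 < μ) (hμT : μ ≤ T) {A0 A1 A2 : ℕ}
    (h0 : Hyp μ ((T : ℝ) ^ A0)⁻¹ ((T : ℝ) ^ 2))
    (h1 : Hyp μ ((T : ℝ) ^ A1)⁻¹ ((T : ℝ) ^ (2 * (A0 + 5) + 4)))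
    (h2 : Hyp μ ((T : ℝ) ^ A2)⁻¹ ((T : ℝ) ^ (4 * (A1 + (A0 + 5) + 11) + 6)))
    {a b c : ℕ} (ha : 1 ≤ a) (hb : 1 ≤ b) (hc : 1 ≤ c) (hab : a ≤ b) :
    ((T : ℝ) ^ (A0 + A1 + A2 + 3 * (A1 + (A0 + 5) + 11) + 10))⁻¹ ≤ |om μ a + om μ b - om μ c| := by
  have ht : (2 : ℝ) ≤ T := by exact_mod_cast hT
  set t : ℝ := (T : ℝ) with htd
  have ht0 : 0 < t := by linarith
  have gb : ∀ n j : ℕ, 1 ≤ j → t ^ (n + 2) ≤ j → gg μ j ≤ (t ^ n)⁻¹ := by
    intro n j hj hn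
    refine (gg_le hμ.le hj).trans ?_
    have hj' : (0 : ℝ) < j := by exact_mod_cast hj
    rw [div_le_iff₀ hj', inv_mul_eq_div, le_div_iff₀ (by positivity)]
    calc μ ^ 2 * t ^ n ≤ t ^ 2 * t ^ n := by gcongr
      _ = t ^ (n + 2) := by rw [← pow_add]; congr 1; ring
      _ ≤ j := hn
  have hoa := one_le_om hμ.le ha
  have hob := one_le_om hμ.le hb
  rcases le_or_gt (T ^ (A0 + 5)) a with haL | haS
  · -- all large
    have haL' : t ^ (A0 + 5) ≤ a := by rw [htd]; exact_mod_cast haL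
    have hbL' : t ^ (A0 + 5) ≤ b := haL'.trans (by exact_mod_cast hab)
    rcases le_or_gt (T ^ (A0 + 5)) c with hcL | hcS
    · have hcL' : t ^ (A0 + 5) ≤ c := by rw [htd]; exact_mod_cast hcL
      have ga := gb (A0 + 3) a ha haL'
      have gbb := gb (A0 + 3) b hb hbL'
      have gc := gb (A0 + 3) c hc hcL'
      have n1 := gg_nonneg hμ.le a
      have n2 := gg_nonneg hμ.le b
      have n3 := gg_nonneg hμ.le c
      have hd := lev0 ht hμ hμT h0 ((a : ℤ) + b - c)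
      have e : om μ a + om μ b - om μ c
          = (((a : ℤ) + b - c : ℤ) : ℝ) + μ + (gg μ c - gg μ a - gg μ b) := by
        rw [om_eq a, om_eq b, om_eq c]
        push_cast
        ring
      have k3 := abs_sub_abs_le_abs_sub ((((a : ℤ) + b - c : ℤ) : ℝ) + μ)
        (-(gg μ c - gg μ a - gg μ b))
      rw [abs_neg, sub_neg_eq_add, ← e] at k3
      have k4 := inv_pow_succ_le ht A0 3
      have k5 : |gg μ c - gg μ a - gg μ b| ≤ (t ^ A0)⁻¹ / 4 := by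
        rw [abs_le]
        constructor <;> linarith
      have k6 := inv_pow_succ_le ht A0 1
      have k7 : (t ^ (A0 + A1 + A2 + 3 * (A1 + (A0 + 5) + 11) + 10))⁻¹ ≤ (t ^ (A0 + 1))⁻¹ :=
        inv_pow_anti ht (by omega)
      have k8 : 0 < (t ^ A0)⁻¹ := by positivity
      linarith
    · have h3 := om_mono hμ.le (hcS.le.trans haL)
      have h4 := inv_pow_le_one ht (A0 + A1 + A2 + 3 * (A1 + (A0 + 5) + 11) + 10)
      rw [abs_of_nonneg (by linarith)]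
      linarith
  · have haS' : (a : ℝ) ≤ t ^ (A0 + 5) := by rw [htd]; exact_mod_cast haS.le
    rcases le_or_gt (T ^ (A1 + (A0 + 5) + 8)) b with hbL | hbS
    · have hbL' : t ^ (A1 + (A0 + 5) + 8) ≤ b := by rw [htd]; exact_mod_cast hbL
      rcases le_or_gt (T ^ (A1 + (A0 + 5) + 8)) c with hcL | hcS
      · have hcL' : t ^ (A1 + (A0 + 5) + 8) ≤ c := by rw [htd]; exact_mod_cast hcL
        have gbb := gb (A1 + (A0 + 5) + 6) b hb hbL'
        have gc := gb (A1 + (A0 + 5) + 6) c hc hcL'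
        have n2 := gg_nonneg hμ.le b
        have n3 := gg_nonneg hμ.le c
        have hd := lev1 ht hμ hμT (by omega) h1 ha haS' ((b : ℤ) - c)
        have e : om μ a + om μ b - om μ c
            = (((b : ℤ) - c : ℤ) : ℝ) + om μ a + (gg μ c - gg μ b) := by
          rw [om_eq b, om_eq c]
          push_cast
          ring
        have k3 := abs_sub_abs_le_abs_sub ((((b : ℤ) - c : ℤ) : ℝ) + om μ a)
          (-(gg μ c - gg μ b))
        rw [abs_neg, sub_neg_eq_add, ← e] at k3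
        have k4 := inv_pow_succ_le ht (A1 + (A0 + 5) + 3) 3
        have k5 : |gg μ c - gg μ b| ≤ (t ^ (A1 + (A0 + 5) + 3))⁻¹ / 8 := by
          have e9 : A1 + (A0 + 5) + 3 + 3 = A1 + (A0 + 5) + 6 := by ring
          rw [e9] at k4
          rw [abs_le]
          constructor <;> linarith
        have k6 := inv_pow_succ_le ht (A1 + (A0 + 5) + 3) 1
        have k7 : (t ^ (A0 + A1 + A2 + 3 * (A1 + (A0 + 5) + 11) + 10))⁻¹
            ≤ (t ^ (A1 + (A0 + 5) + 3 + 1))⁻¹ := inv_pow_anti ht (by omega)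
        have k8 : 0 < (t ^ (A1 + (A0 + 5) + 3))⁻¹ := by positivity
        linarith
      · have h3 := om_mono hμ.le (hcS.le.trans hbL)
        have h4 := inv_pow_le_one ht (A0 + A1 + A2 + 3 * (A1 + (A0 + 5) + 11) + 10)
        rw [abs_of_nonneg (by linarith)]
        linarith
    · have hbS' : (b : ℝ) ≤ t ^ (A1 + (A0 + 5) + 8) := by rw [htd]; exact_mod_cast hbS.le
      have haS2 : (a : ℝ) ≤ t ^ (A1 + (A0 + 5) + 8) := le_trans (by exact_mod_cast hab) hbS'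
      have e11 : t ^ (A1 + (A0 + 5) + 11) = t ^ (A1 + (A0 + 5) + 8) * t ^ 3 := by
        rw [← pow_add]
      have ht3 : 8 ≤ t ^ 3 := by
        calc (8 : ℝ) = 2 ^ 3 := by norm_num
          _ ≤ t ^ 3 := by gcongr
      have hY : t ≤ t ^ (A1 + (A0 + 5) + 8) := by
        calc t = t ^ 1 := (pow_one t).symm
          _ ≤ _ := pow_le_pow_right₀ (by linarith) (by omega)
      have hYY : 8 * t ^ (A1 + (A0 + 5) + 8) ≤ t ^ (A1 + (A0 + 5) + 11) := by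
        rw [e11]
        nlinarith
      rcases le_or_gt (T ^ (A1 + (A0 + 5) + 11)) c with hcL | hcS
      · have hcL' : t ^ (A1 + (A0 + 5) + 11) ≤ c := by rw [htd]; exact_mod_cast hcL
        have u1 := om_le hμ.le a
        have u2 := om_le hμ.le b
        have u3 := le_om hμ.le c
        have h4 := inv_pow_le_one ht (A0 + A1 + A2 + 3 * (A1 + (A0 + 5) + 11) + 10)
        rw [abs_of_nonpos (by linarith)]
        linarith
      · have hcS' : (c : ℝ) ≤ t ^ (A1 + (A0 + 5) + 11) := by rw [htd]; exact_mod_cast hcS.le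
        have hl := lev2 ht hμ hμT (by omega) h2 ha hb hc (by linarith) (by linarith) hcS'
        exact (inv_pow_anti ht (by omega)).trans hl

end

lemma sqNorm_nat {d : ℕ} (n : Lat d) : ∃ N : ℕ, sqNorm n = N := by
  refine ⟨∑ j, (n j).natAbs ^ 2, ?_⟩
  unfold sqNorm
  push_cast
  refine Finset.sum_congr rfl fun j _ => ?_
  rw [Nat.cast_natAbs]
  push_cast
  rw [sq_abs]

theorem qg1 (d : ℕ) : QG1 d := by
  intro A0
  refine ⟨2 * (A0 + 5) + 4, fun A1 => ⟨4 * (A1 + (A0 + 5) + 11) + 6, fun A2 =>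
    ⟨A0 + A1 + A2 + 3 * (A1 + (A0 + 5) + 11) + 10, fun T hT μ hμ hμT h0 h1 h2 a b ha hb hab => ?_⟩⟩⟩
  obtain ⟨A, hA⟩ := sqNorm_nat a
  obtain ⟨B, hB⟩ := sqNorm_nat b
  obtain ⟨N, hN⟩ := sqNorm_nat (a + b)
  have g1 := one_le_sqNorm ha
  have g2 := one_le_sqNorm hb
  have g3 := one_le_sqNorm hab
  rw [hA] at g1
  rw [hB] at g2
  rw [hN] at g3
  have g1' : 1 ≤ A := by exact_mod_cast g1
  have g2' : 1 ≤ B := by exact_mod_cast g2
  have g3' : 1 ≤ N := by exact_mod_cast g3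
  have eA : Om μ a = om μ A := by unfold Om om; rw [hA]
  have eB : Om μ b = om μ B := by unfold Om om; rw [hB]
  have eN : Om μ (a + b) = om μ N := by unfold Om om; rw [hN]
  rw [eA, eB, eN]
  have key : ((T : ℝ) ^ (A0 + A1 + A2 + 3 * (A1 + (A0 + 5) + 11) + 10))⁻¹
      ≤ |om μ A + om μ B - om μ N| := by
    rcases le_total A B with h | h
    · exact gap_le hT hμ hμT h0 h1 h2 g1' g2' g3' h
    · have := gap_le hT hμ hμT h0 h1 h2 g2' g1' g3' h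
      rwa [add_comm (om μ B)] at this
  refine key.trans (le_of_eq ?_)
  rw [abs_sub_comm]
  congr 1
  ring

end Vale.Agent.P139.Q836
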