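import Vale.Agent.P139.Q836.Defs
import Mathlib.MeasureTheory.Measure.Lebesgue.VolumeOfBalls

/-! Block QG2: the integer polynomials of degree at most two are bounded below at `m ‖z‖ ^ (2 m)`
with large probability. -/

open Set Metric Filter Topology MeasureTheory ProbabilityTheory
open scoped NNReal ENNReal

namespace Vale.Agent.P139.Q836.Qg2

open Vale.Agent.P139.A Vale.Agent.P139.Q836

theorem gauss_le : gaussianReal 0 (1 / 2) ≤ (volume : Measure ℝ) := by
  rw [gaussianReal_of_var_ne_zero 0 (by norm_num)]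
  calc volume.withDensity (gaussianPDF 0 (1 / 2))
      ≤ volume.withDensity (fun _ : ℝ => (1 : ℝ≥0∞)) := by
        refine withDensity_mono (Filter.Eventually.of_forall fun x => ?_)
        rw [gaussianPDF_def]
        simp only
        rw [← ENNReal.ofReal_one]
        refine ENNReal.ofReal_le_ofReal ?_
        rw [gaussianPDFReal_def]
        simp only
        have h1 : (1 : ℝ) ≤ √(2 * Real.pi * ((1 / 2 : ℝ≥0) : ℝ)) := by
          rw [Real.one_le_sqrt]
          have := Real.two_le_pi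
          push_cast
          linarith
        have h2 : Real.exp (-(x - 0) ^ 2 / (2 * ((1 / 2 : ℝ≥0) : ℝ))) ≤ 1 := by
          rw [Real.exp_le_one_iff]
          refine div_nonpos_of_nonpos_of_nonneg ?_ (by positivity)
          have := sq_nonneg (x - 0)
          linarith
        calc _ ≤ (1 : ℝ) * 1 := by
              refine mul_le_mul (inv_le_one_of_one_le₀ h1) h2 (Real.exp_pos _).le zero_le_one
          _ = 1 := one_mul _
    _ = volume := by
        rw [withDensity_const, one_smul]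

theorem std_le {S : Set ℂ} (hS : MeasurableSet S) : stdComplexGaussian S ≤ volume S := by
  have hm : Measurable (fun z : ℝ × ℝ => (⟨z.1, z.2⟩ : ℂ)) :=
    Complex.measurableEquivRealProd.symm.measurable
  have h4 : ((volume : Measure ℝ).prod (volume : Measure ℝ)).map
      (fun z : ℝ × ℝ => (⟨z.1, z.2⟩ : ℂ)) = (volume : Measure ℂ) :=
    Complex.volume_preserving_equiv_real_prod.symm.map_eq
  rw [← h4]
  unfold stdComplexGaussian
  rw [Measure.map_apply hm hS, Measure.map_apply hm hS, Measure.prod_apply (hm hS),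
    Measure.prod_apply (hm hS)]
  exact lintegral_mono' gauss_le fun x => gauss_le _

theorem ann {m : ℕ} (hm : 1 ≤ m) {x l δ : ℝ} (hδ : 0 ≤ δ) (hl : 2 * l ≤ δ ^ m) :
    stdComplexGaussian {z : ℂ | |m * ‖z‖ ^ (2 * m) - x| ≤ l} ≤ ENNReal.ofReal (Real.pi * δ) := by
  have hmp : (0 : ℝ) < m := by exact_mod_cast hm
  have hm1 : (1 : ℝ) ≤ m := by exact_mod_cast hm
  have hm0 : m ≠ 0 := by omega
  set a : ℝ := (max (x - l) 0 / m) ^ ((m : ℝ)⁻¹) with ha
  have hq : 0 ≤ max (x - l) 0 / m := by positivity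
  have ha0 : 0 ≤ a := Real.rpow_nonneg hq _
  have ham : a ^ m = max (x - l) 0 / m := Real.rpow_inv_natCast_pow hq hm0
  have hsub : {z : ℂ | |m * ‖z‖ ^ (2 * m) - x| ≤ l} ⊆ closedBall 0 √(a + δ) \ ball 0 √a := by
    intro z hz
    have hz' : |m * ‖z‖ ^ (2 * m) - x| ≤ l := hz
    rw [abs_le] at hz'
    have h1 : m * (‖z‖ ^ 2) ^ m ≤ x + l := by rw [← pow_mul]; linarith [hz'.2]
    have h2 : x - l ≤ m * (‖z‖ ^ 2) ^ m := by rw [← pow_mul]; linarith [hz'.1]
    have h0 : 0 ≤ m * (‖z‖ ^ 2) ^ m := by positivity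
    refine ⟨?_, ?_⟩
    · rw [mem_closedBall, dist_zero_right]
      refine Real.le_sqrt_of_sq_le ?_
      refine le_of_pow_le_pow_left₀ hm0 (by positivity) ?_
      have h3 : a ^ m + δ ^ m ≤ (a + δ) ^ m := pow_add_pow_le ha0 hδ hm0
      refine le_trans ?_ h3
      rw [ham]
      have h4 : x - l ≤ max (x - l) 0 := le_max_left _ _
      have h5 : δ ^ m ≤ m * δ ^ m := by
        have : 0 ≤ δ ^ m := by positivity
        nlinarith
      have h6 : m * (‖z‖ ^ 2) ^ m ≤ m * (max (x - l) 0 / m + δ ^ m) := by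
        rw [mul_add, mul_div_cancel₀ _ hmp.ne']
        linarith
      exact le_of_mul_le_mul_left h6 hmp
    · rw [mem_ball, dist_zero_right, not_lt]
      refine Real.sqrt_le_iff.2 ⟨norm_nonneg _, ?_⟩
      refine le_of_pow_le_pow_left₀ hm0 (by positivity) ?_
      rw [ham, div_le_iff₀ hmp, mul_comm]
      exact max_le h2 h0
  have hms : MeasurableSet (closedBall (0 : ℂ) √(a + δ) \ ball 0 √a) :=
    measurableSet_closedBall.diff measurableSet_ball
  refine (measure_mono hsub).trans ((std_le hms).trans ?_)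
  rw [measure_sdiff ?_ measurableSet_ball.nullMeasurableSet measure_ball_lt_top.ne]
  · rw [Complex.volume_closedBall, Complex.volume_ball, ← ENNReal.ofReal_pow (Real.sqrt_nonneg _),
      ← ENNReal.ofReal_pow (Real.sqrt_nonneg _), Real.sq_sqrt (by positivity), Real.sq_sqrt ha0]
    have hpi : ((NNReal.pi : ℝ≥0) : ℝ≥0∞) = ENNReal.ofReal Real.pi := by
      rw [← NNReal.coe_real_pi, ENNReal.ofReal_coe_nnreal]
    rw [hpi, ← ENNReal.ofReal_mul (by positivity), ← ENNReal.ofReal_mul ha0,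
      ← ENNReal.ofReal_sub _ (by positivity)]
    refine ENNReal.ofReal_le_ofReal ?_
    nlinarith
  · exact (ball_subset_ball (Real.sqrt_le_sqrt (by linarith))).trans ball_subset_closedBall

/-- The three centres of a triple. -/
noncomputable def ctr (t : ℤ × ℤ × ℤ) (i : Fin 3) : ℝ :=
  if i = 0 then -(t.2.2 : ℝ) / t.2.1
  else if i = 1 then (-(t.2.1 : ℝ) + √((t.2.1 : ℝ) ^ 2 - 4 * t.1 * t.2.2)) / (2 * t.1)
  else (-(t.2.1 : ℝ) - √((t.2.1 : ℝ) ^ 2 - 4 * t.1 * t.2.2)) / (2 * t.1)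

theorem near {μ l : ℝ} (hl : 0 < l) (hl1 : l ≤ 1) {a b c : ℤ} (h0 : a ≠ 0 ∨ b ≠ 0 ∨ c ≠ 0)
    (h : |(a : ℝ) * μ ^ 2 + b * μ + c| < l ^ 2) : ∃ i : Fin 3, |μ - ctr (a, b, c) i| ≤ l := by
  have hll : l ^ 2 ≤ l := by nlinarith
  by_cases ha : a = 0
  · by_cases hb : b = 0
    · have hc : c ≠ 0 := by
        rcases h0 with h0 | h0 | h0
        · exact absurd ha h0
        · exact absurd hb h0
        · exact h0
      have h1 : (1 : ℝ) ≤ |(c : ℝ)| := by exact_mod_cast Int.one_le_abs hc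
      rw [ha, hb] at h
      simp only [Int.cast_zero, zero_mul, zero_add] at h
      exfalso
      nlinarith
    · refine ⟨0, ?_⟩
      have hb0 : (b : ℝ) ≠ 0 := by exact_mod_cast hb
      have h1 : (1 : ℝ) ≤ |(b : ℝ)| := by exact_mod_cast Int.one_le_abs hb
      have h2 : (b : ℝ) * (μ - ctr (a, b, c) 0) = a * μ ^ 2 + b * μ + c := by
        unfold ctr
        simp only [if_true, ha, Int.cast_zero, zero_mul, zero_add]
        field_simp
        ring
      have h3 : |(b : ℝ)| * |μ - ctr (a, b, c) 0| < l ^ 2 := by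
        rw [← abs_mul, h2]
        exact h
      have h4 : 0 ≤ |μ - ctr (a, b, c) 0| := abs_nonneg _
      nlinarith
  · have ha0 : (a : ℝ) ≠ 0 := by exact_mod_cast ha
    have h1 : (1 : ℝ) ≤ |(a : ℝ)| := by exact_mod_cast Int.one_le_abs ha
    by_cases hD : 0 ≤ (b : ℝ) ^ 2 - 4 * a * c
    · have h2 : (a : ℝ) * ((μ - ctr (a, b, c) 1) * (μ - ctr (a, b, c) 2)) =
          a * μ ^ 2 + b * μ + c := by
        unfold ctr
        simp only [Fin.isValue, one_ne_zero, if_false, if_true, show (2 : Fin 3) ≠ 0 by decide,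
          show (2 : Fin 3) ≠ 1 by decide]
        have hs := Real.sq_sqrt hD
        set s := √((b : ℝ) ^ 2 - 4 * a * c) with hs'
        field_simp
        nlinarith
      have h3 : |(a : ℝ)| * (|μ - ctr (a, b, c) 1| * |μ - ctr (a, b, c) 2|) < l ^ 2 := by
        rw [← abs_mul, ← abs_mul, h2]
        exact h
      by_contra hcon
      push Not at hcon
      have h4 := hcon 1
      have h5 := hcon 2
      have h6 : l * l ≤ |μ - ctr (a, b, c) 1| * |μ - ctr (a, b, c) 2| :=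
        mul_le_mul h4.le h5.le hl.le (abs_nonneg _)
      have h7 : 0 ≤ |μ - ctr (a, b, c) 1| * |μ - ctr (a, b, c) 2| := by positivity
      nlinarith
    · refine ⟨1, ?_⟩
      push Not at hD
      have hs : √((b : ℝ) ^ 2 - 4 * a * c) = 0 := Real.sqrt_eq_zero_of_nonpos hD.le
      have hc : ctr (a, b, c) 1 = -(b : ℝ) / (2 * a) := by
        unfold ctr
        simp only [Fin.isValue, one_ne_zero, if_false, if_true]
        rw [hs, add_zero]
      rw [hc]
      have h2 : (a : ℝ) * μ ^ 2 + b * μ + c =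
          a * ((μ - -(b : ℝ) / (2 * a)) ^ 2 + (4 * a * c - (b : ℝ) ^ 2) / (4 * a ^ 2)) := by
        field_simp
        ring
      rw [h2, abs_mul] at h
      have h3 : 0 ≤ (4 * a * c - (b : ℝ) ^ 2) / (4 * a ^ 2) :=
        div_nonneg (by linarith) (by positivity)
      have h4 : 0 ≤ (μ - -(b : ℝ) / (2 * a)) ^ 2 := sq_nonneg _
      rw [abs_of_nonneg (add_nonneg h4 h3)] at h
      refine abs_le_of_sq_le_sq ?_ hl.le
      nlinarith

/-- **QG2.** -/
theorem qg2 {m : ℕ} (hm : 1 ≤ m) : QG2 m := by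
  intro N
  refine ⟨162 * Real.pi, by positivity, 2 * (m * (3 * N + 1)), fun T hT => ?_⟩
  have hT1 : (1 : ℝ) ≤ T := by
    have : (2 : ℝ) ≤ T := by exact_mod_cast hT
    linarith
  have hT0 : (0 : ℝ) < T := by linarith
  set l : ℝ := ((T : ℝ) ^ (m * (3 * N + 1)))⁻¹ with hl
  have hl0 : 0 < l := by positivity
  have hl1 : l ≤ 1 := inv_le_one_of_one_le₀ (one_le_pow₀ hT1)
  have hl2 : ((T : ℝ) ^ (2 * (m * (3 * N + 1))))⁻¹ = l ^ 2 := by
    rw [hl, inv_pow, ← pow_mul, mul_comm 2]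
  set δ : ℝ := 2 * ((T : ℝ) ^ (3 * N + 1))⁻¹ with hδ
  have hδ0 : 0 ≤ δ := by positivity
  have hlδ : 2 * l ≤ δ ^ m := by
    rw [hδ, mul_pow, inv_pow, ← pow_mul, mul_comm (3 * N + 1) m, ← hl]
    have h2 : (2 : ℝ) ≤ 2 ^ m := by
      calc (2 : ℝ) = 2 ^ 1 := by norm_num
        _ ≤ 2 ^ m := pow_le_pow_right₀ (by norm_num) hm
    exact mul_le_mul_of_nonneg_right h2 hl0.le
  set K : ℤ := (T : ℤ) ^ N with hK
  set I : Finset ℤ := Finset.Icc (-K) K with hI
  set F : Finset ((ℤ × ℤ × ℤ) × Fin 3) := (I ×ˢ I ×ˢ I) ×ˢ Finset.univ with hF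
  have hsub : {z : ℂ | ¬ Hyp (m * ‖z‖ ^ (2 * m)) ((T : ℝ) ^ (2 * (m * (3 * N + 1))))⁻¹
      ((T : ℝ) ^ N)} ⊆ ⋃ t ∈ F, {z : ℂ | |m * ‖z‖ ^ (2 * m) - ctr t.1 t.2| ≤ l} := by
    intro z hz
    have hz' : ¬ Hyp (m * ‖z‖ ^ (2 * m)) ((T : ℝ) ^ (2 * (m * (3 * N + 1))))⁻¹
      ((T : ℝ) ^ N) := hz
    unfold Hyp at hz'
    push Not at hz'
    obtain ⟨a, b, c, h0, ha, hb, hc, h⟩ := hz'
    rw [hl2] at h
    obtain ⟨i, hi⟩ := near hl0 hl1 h0 h
    have hmem : ∀ a : ℤ, |(a : ℝ)| ≤ (T : ℝ) ^ N → a ∈ I := by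
      intro a ha
      rw [hI, Finset.mem_Icc, ← abs_le, hK]
      have : ((|a| : ℤ) : ℝ) ≤ (((T : ℤ) ^ N : ℤ) : ℝ) := by
        push_cast
        exact ha
      exact_mod_cast this
    simp only [mem_iUnion]
    refine ⟨((a, b, c), i), ?_, hi⟩
    rw [hF, Finset.mem_product, Finset.mem_product, Finset.mem_product]
    exact ⟨⟨hmem a ha, hmem b hb, hmem c hc⟩, Finset.mem_univ _⟩
  refine (measure_mono hsub).trans ((measure_biUnion_finset_le _ _).trans ?_)
  refine (Finset.sum_le_card_nsmul F _ (ENNReal.ofReal (Real.pi * δ))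
    fun t _ => ann hm hδ0 hlδ).trans ?_
  rw [nsmul_eq_mul, ← ENNReal.ofReal_natCast, ← ENNReal.ofReal_mul (by positivity)]
  refine ENNReal.ofReal_le_ofReal ?_
  have hK1 : (1 : ℤ) ≤ K := by
    rw [hK]
    have : (1 : ℤ) ≤ (T : ℤ) := by exact_mod_cast (by omega : 1 ≤ T)
    exact one_le_pow₀ this
  have hIc : ((I.card : ℕ) : ℤ) = 2 * K + 1 := by
    rw [hI, Int.card_Icc]
    omega
  have hIc2 : (I.card : ℝ) ≤ 3 * (T : ℝ) ^ N := by
    have h1 : ((I.card : ℕ) : ℤ) ≤ 3 * K := by omega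
    have h2 : (((I.card : ℕ) : ℤ) : ℝ) ≤ ((3 * K : ℤ) : ℝ) := by exact_mod_cast h1
    rw [hK] at h2
    push_cast at h2
    exact h2
  have hFc : (F.card : ℝ) ≤ 81 * ((T : ℝ) ^ N) ^ 3 := by
    rw [hF, Finset.card_product, Finset.card_product, Finset.card_product, Finset.card_univ,
      Fintype.card_fin]
    push_cast
    have h0 : (0 : ℝ) ≤ I.card := by positivity
    have h1 : (I.card : ℝ) ^ 3 ≤ (3 * (T : ℝ) ^ N) ^ 3 := pow_le_pow_left₀ h0 hIc2 3
    nlinarith
  calc (F.card : ℝ) * (Real.pi * δ) ≤ (81 * ((T : ℝ) ^ N) ^ 3) * (Real.pi * δ) :=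
        mul_le_mul_of_nonneg_right hFc (by positivity)
    _ = 162 * Real.pi / T := by
        have h1 : (T : ℝ) ^ (3 * N + 1) = ((T : ℝ) ^ N) ^ 3 * T := by
          rw [← pow_mul, pow_succ, mul_comm N 3]
        rw [hδ, h1]
        have h2 : (T : ℝ) ^ N ≠ 0 := by positivity
        field_simp
        norm_num

end Vale.Agent.P139.Q836.Qg2

namespace Vale.Agent.P139.Q836

/-- **QG2.** -/
theorem qg2 {m : ℕ} (hm : 1 ≤ m) : QG2 m := Qg2.qg2 hm

end Vale.Agent.P139.Q836
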