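import Vale.Agent.P139.H836.Main

/-! Scaling of the closed system: bounds with explicit dependence on the constant. -/

open Set Metric Filter Topology MeasureTheory
open scoped NNReal ComplexConjugate

namespace Vale.Agent.P139.Q836

open Vale.Agent.P139.A Vale.Agent.P139.A.WA Vale.Agent.P139.H836 Vale.Agent.P139.H836.Nlin

variable {d k : ℕ}

lemma mass_Pz_smul (r : ℝ) (w : WA d k) : mass (Pz (r • w)) = r ^ 2 * mass (Pz w) := by
  unfold mass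
  rw [map_smul, map_smul, smul_mul_smul_comm, coef_real_smul, Complex.re_ofReal_mul]
  ring

lemma bz_scale {c : ℝ} (hc : 0 < c) (e : ℝ) (w : WA d k) :
    bz c e w = c * bz 1 (e / c ^ 2) (c⁻¹ • w) := by
  unfold bz
  rw [mass_Pz_smul, show c ^ 2 + e - mass (Pz w) =
    c ^ 2 * (1 ^ 2 + e / c ^ 2 - c⁻¹ ^ 2 * mass (Pz w)) by field_simp,
    Real.sqrt_mul (by positivity), Real.sqrt_sq hc.le]

lemma fe_scale (m : ℕ) {c : ℝ} (hc : 0 < c) (e : ℝ) (w : WA d k) :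
    fe m c e w = (c ^ (2 * m + 1)) • fe m 1 (e / c ^ 2) (c⁻¹ • w) := by
  unfold fe
  have h1 : cst (bz c e w) + Pz w = c • (cst (bz 1 (e / c ^ 2) (c⁻¹ • w)) + Pz (c⁻¹ • w)) := by
    rw [bz_scale hc, map_smul, smul_add, smul_smul, mul_inv_cancel₀ hc.ne', one_smul]
    unfold cst
    rw [smul_smul]
  rw [h1, Nl_smul_real m hc.ne', map_smul, smul_sub, Lin_eq, Lin_eq]
  congr 1
  simp only [map_smul, smul_comm Complex.I (_ : ℝ), smul_add, smul_smul, smul_neg]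
  have e1 : c ^ (2 * m + 1) * (↑m * 1 ^ (2 * m) * c⁻¹) = ↑m * c ^ (2 * m) := by
    field_simp
    ring
  rw [e1]

lemma Qd_scale {m : ℕ} (hm : 1 ≤ m) {c : ℝ} (hc : 0 < c) (w : WA d k) :
    Qd m c w w = (c ^ (2 * m + 1)) • Qd m 1 (c⁻¹ • w) (c⁻¹ • w) := by
  rw [Qd_apply, Qd_apply, Qf_eq, Qf_eq, map_smul Pz, q_smul]
  obtain ⟨l, rfl⟩ : ∃ l, m = l + 1 := ⟨m - 1, by omega⟩
  have e1 : 2 * (l + 1) - 1 = 2 * l + 1 := by omega
  rw [e1]
  simp only [map_smul, smul_comm Complex.I (_ : ℝ), smul_smul, smul_neg]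
  have e2 : c ^ (2 * (l + 1) + 1) * (1 ^ (2 * l + 1) * c⁻¹ ^ 2) = c ^ (2 * l + 1) := by
    field_simp
    ring
  rw [e2]

/-- Cubic bound, uniform in the constant. -/
theorem fe_cubic' {m : ℕ} (hm : 1 ≤ m) : ∃ C, 0 ≤ C ∧ ∃ δ, 0 < δ ∧ ∀ c : ℝ, 0 < c →
    ∀ (e : ℝ) (w : WA d k), 0 ≤ e → e ≤ δ * c ^ 2 → ‖w‖ ≤ δ * c →
      ‖fe m c e w - Qd m c w w‖ ≤ C * c ^ (2 * m - 2) * (‖w‖ ^ 3 + e * ‖w‖) := by
  obtain ⟨C, hC, δ, hδ, H⟩ := fe_cubic (d := d) (k := k) hm (c := 1) one_pos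
  refine ⟨C, hC, δ, hδ, fun c hc e w he he1 hw => ?_⟩
  rw [fe_scale m hc, Qd_scale hm hc, ← smul_sub, norm_smul, Real.norm_eq_abs,
    abs_of_pos (by positivity)]
  have hw' : ‖c⁻¹ • w‖ = ‖w‖ / c := by
    rw [norm_smul, norm_inv, Real.norm_eq_abs, abs_of_pos hc]
    ring
  have h := H (e / c ^ 2) (c⁻¹ • w) (by positivity) (by rw [div_le_iff₀ (by positivity)]; exact he1)
    (by rw [hw', div_le_iff₀ hc]; exact hw)
  rw [hw'] at h
  refine (mul_le_mul_of_nonneg_left h (by positivity)).trans (le_of_eq ?_)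
  obtain ⟨l, rfl⟩ : ∃ l, m = l + 1 := ⟨m - 1, by omega⟩
  have e1 : 2 * (l + 1) - 2 = 2 * l := by omega
  rw [e1]
  field_simp
  ring

/-- Lipschitz bound, uniform in the constant. -/
theorem fe_lip' {m : ℕ} (hm : 1 ≤ m) : ∃ r0, 0 < r0 ∧ ∃ δ, 0 < δ ∧ ∀ c : ℝ, 0 < c →
    ∀ e, 0 ≤ e → e ≤ δ * c ^ 2 →
      ∃ L : ℝ≥0, LipschitzOnWith L (fe m c e : WA d k → WA d k) (closedBall 0 (r0 * c)) := by
  obtain ⟨r0, hr0, δ, hδ, H⟩ := fe_lip (d := d) (k := k) hm (c := 1) one_pos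
  refine ⟨r0, hr0, δ, hδ, fun c hc e he he1 => ?_⟩
  obtain ⟨L, hL⟩ := H (e / c ^ 2) (by positivity) (by rw [div_le_iff₀ (by positivity)]; exact he1)
  obtain ⟨Ln, hLn⟩ : ∃ Ln : ℝ≥0, (Ln : ℝ) = c ^ (2 * m + 1) * (L * c⁻¹) :=
    ⟨⟨c ^ (2 * m + 1) * (L * c⁻¹), by positivity⟩, rfl⟩
  refine ⟨Ln, ?_⟩
  rw [lipschitzOnWith_iff_norm_sub_le]
  have hmem : ∀ x ∈ closedBall (0 : WA d k) (r0 * c), c⁻¹ • x ∈ closedBall (0 : WA d k) r0 := by
    intro x hx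
    rw [mem_closedBall_zero_iff] at hx ⊢
    rw [norm_smul, norm_inv, Real.norm_eq_abs, abs_of_pos hc, inv_mul_le_iff₀ hc]
    linarith
  intro x hx y hy
  rw [fe_scale m hc, fe_scale m hc, ← smul_sub, norm_smul, Real.norm_eq_abs,
    abs_of_pos (by positivity)]
  have h := hL.norm_sub_le (hmem x hx) (hmem y hy)
  rw [← smul_sub, norm_smul, norm_inv, Real.norm_eq_abs, abs_of_pos hc] at h
  refine (mul_le_mul_of_nonneg_left h (by positivity)).trans (le_of_eq ?_)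
  rw [hLn]
  ring

end Vale.Agent.P139.Q836
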