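import Vale.Agent.P139.Q836.Abs2
import Vale.Agent.P139.Q836.PrimB2
import Vale.Agent.P139.Q836.Scale
import Vale.Agent.P139.Q836.Defs

/-! Long-time existence near a constant with constants that are powers of one parameter. -/

open Set Metric Filter Topology MeasureTheory
open scoped NNReal ComplexConjugate

namespace Vale.Agent.P139.Q836

open Vale.Agent.P139.A Vale.Agent.P139.A.WA Vale.Agent.P139.H836

variable {d k : ℕ}

/-! ### Functions bounded by a power -/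

/-- `f` is bounded by a power on `[1, ∞)`. -/
def Pb (f : ℝ → ℝ) : Prop := ∃ A : ℝ, 0 < A ∧ ∃ N : ℕ, ∀ R : ℝ, 1 ≤ R → |f R| ≤ A * R ^ N

lemma Pb.const (a : ℝ) : Pb fun _ => a :=
  ⟨|a| + 1, by positivity, 0, fun R _ => by rw [pow_zero, mul_one]; linarith⟩

lemma Pb.id : Pb fun R => R :=
  ⟨1, one_pos, 1, fun R hR => by rw [pow_one, one_mul, abs_of_pos (by linarith)]⟩

lemma Pb.add {f g : ℝ → ℝ} (hf : Pb f) (hg : Pb g) : Pb fun R => f R + g R := by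
  obtain ⟨A, hA, N, h1⟩ := hf
  obtain ⟨B, hB, M, h2⟩ := hg
  refine ⟨A + B, by positivity, max N M, fun R hR => (abs_add_le _ _).trans ?_⟩
  have e1 : R ^ N ≤ R ^ max N M := pow_le_pow_right₀ hR (le_max_left _ _)
  have e2 : R ^ M ≤ R ^ max N M := pow_le_pow_right₀ hR (le_max_right _ _)
  calc _ ≤ A * R ^ N + B * R ^ M := add_le_add (h1 R hR) (h2 R hR)
    _ ≤ A * R ^ max N M + B * R ^ max N M := by gcongr
    _ = _ := by ring

lemma Pb.mul {f g : ℝ → ℝ} (hf : Pb f) (hg : Pb g) : Pb fun R => f R * g R := by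
  obtain ⟨A, hA, N, h1⟩ := hf
  obtain ⟨B, hB, M, h2⟩ := hg
  refine ⟨A * B, by positivity, N + M, fun R hR => ?_⟩
  rw [abs_mul]
  calc _ ≤ (A * R ^ N) * (B * R ^ M) := mul_le_mul (h1 R hR) (h2 R hR) (abs_nonneg _) (by positivity)
    _ = _ := by ring

lemma Pb.pow {f : ℝ → ℝ} (hf : Pb f) (n : ℕ) : Pb fun R => f R ^ n := by
  induction n with
  | zero => simpa using Pb.const 1
  | succ n ih => simpa only [pow_succ] using ih.mul hf

/-! ### The constants -/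

/-- Bound of the flow. -/
noncomputable def Mr (m : ℕ) (R : ℝ) : ℝ := 2 * (2 + m * R ^ (2 * m))

/-- Bound of the primitive. -/
noncomputable def Kr (m : ℕ) (R : ℝ) : ℝ :=
  R ^ (2 * m) * (4 * (m * (m + 1)) * (4 * (32 * R * (2 + m * R ^ (2 * m)) * (2 + m * R ^ (2 * m)) *
    (2 + m * R ^ (2 * m)))))

/-- Bound of the quadratic part. -/
noncomputable def qr (m : ℕ) (R : ℝ) : ℝ := R ^ (2 * m) * (4 * (m * (m + 1)))

/-- Bound of the cubic part. -/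
noncomputable def Cr (m : ℕ) (C1 R : ℝ) : ℝ := C1 * R ^ (2 * m) * (8 * Mr m R ^ 3 + 2 * Mr m R)

/-- All the requirements. -/
noncomputable def Lr (m : ℕ) (C1 i1 i2 i3 R : ℝ) : ℝ :=
  1 + 4 * Mr m R * R * i2 + R ^ 2 * i1 + R ^ 2 * i3 + 2 * Mr m R * R * i1 + 4 * Mr m R * R +
    16 * (Kr m R + 1) + 4 * (Mr m R * Cr m C1 R + 4 * Kr m R * Mr m R *
      (qr m R * (2 * Mr m R) ^ 2 + Cr m C1 R) + 1)

lemma Pb_Mr (m : ℕ) : Pb (Mr m) :=
  (Pb.const 2).mul ((Pb.const 2).add ((Pb.const _).mul (Pb.id.pow _)))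

lemma Pb_Kr (m : ℕ) : Pb (Kr m) := by
  have h1 := (Pb.const 2).add ((Pb.const (m : ℝ)).mul (Pb.id.pow (2 * m)))
  exact (Pb.id.pow _).mul ((Pb.const _).mul ((Pb.const _).mul
    (((((Pb.const 32).mul Pb.id).mul h1).mul h1).mul h1)))

lemma Pb_qr (m : ℕ) : Pb (qr m) := (Pb.id.pow _).mul (Pb.const _)

lemma Pb_Cr (m : ℕ) (C1 : ℝ) : Pb (Cr m C1) :=
  ((Pb.const _).mul (Pb.id.pow _)).mul (((Pb.const _).mul ((Pb_Mr m).pow 3)).add
    ((Pb.const _).mul (Pb_Mr m)))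

lemma Pb_Lr (m : ℕ) (C1 i1 i2 i3 : ℝ) : Pb (Lr m C1 i1 i2 i3) := by
  have hM := Pb_Mr m
  have hK := Pb_Kr m
  have hq := Pb_qr m
  have hC := Pb_Cr m C1
  exact ((((((((Pb.const 1).add ((((Pb.const 4).mul hM).mul Pb.id).mul (Pb.const i2))).add
    ((Pb.id.pow 2).mul (Pb.const i1))).add ((Pb.id.pow 2).mul (Pb.const i3))).add
    ((((Pb.const 2).mul hM).mul Pb.id).mul (Pb.const i1))).add
    (((Pb.const 4).mul hM).mul Pb.id)).add ((Pb.const 16).mul (hK.add (Pb.const 1)))).add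
    ((Pb.const 4).mul (((hM.mul hC).add ((((Pb.const 4).mul hK).mul hM).mul
      ((hq.mul (((Pb.const 2).mul hM).pow 2)).add hC))).add (Pb.const 1))))

lemma norm_Qd_le' (m : ℕ) (c : ℝ) :
    ‖(Qd m c : WA d k →L[ℝ] WA d k →L[ℝ] WA d k)‖ ≤ |c ^ (2 * m - 1)| * (4 * ((m : ℝ) * (m + 1))) :=
  LinearMap.mkContinuous₂_norm_le _ (by positivity) _

lemma pow_pred_le {m : ℕ} (hm : 1 ≤ m) {c R : ℝ} (hc : 0 < c) (hcR : c ≤ R) (hR : 1 ≤ R) :
    |c ^ (2 * m - 1)| ≤ R ^ (2 * m) := by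
  rw [abs_of_pos (by positivity)]
  exact (pow_le_pow_left₀ hc.le hcR _).trans (pow_le_pow_right₀ hR (by omega))

lemma pow_pred_le' {m : ℕ} {c R : ℝ} (hc : 0 < c) (hcR : c ≤ R) (hR : 1 ≤ R) :
    c ^ (2 * m - 2) ≤ R ^ (2 * m) :=
  (pow_le_pow_left₀ hc.le hcR _).trans (pow_le_pow_right₀ hR (by omega))

lemma Kp_le {m : ℕ} (hm : 1 ≤ m) {c R : ℝ} (hc : 0 < c) (hcR : c ≤ R) (hR : 1 ≤ R) :
    Kp m c (m * c ^ (2 * m)) R⁻¹ ≤ Kr m R := by
  have hm0 : (1 : ℝ) ≤ m := by exact_mod_cast hm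
  have hR0 : 0 < R := by linarith
  have h1 : |(m : ℝ) * (m + 1) / 2| ≤ m * (m + 1) := by
    rw [abs_of_nonneg (by positivity)]
    nlinarith
  have h2 : |(m : ℝ) * (m - 1) / 2| ≤ m * (m + 1) := by
    rw [abs_le]
    constructor <;> nlinarith
  have h3 : (2 : ℝ) + m * c ^ (2 * m) ≤ 2 + m * R ^ (2 * m) := by gcongr
  have h4 : (32 : ℝ) / R⁻¹ = 32 * R := by rw [div_inv_eq_mul]
  have h5 := pow_pred_le hm hc hcR hR
  unfold Kp Kr
  rw [h4]
  set X : ℝ := 2 + m * c ^ (2 * m)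
  set Y : ℝ := 2 + m * R ^ (2 * m)
  have hX : 0 ≤ X := by positivity
  have hXY : 4 * (32 * R * X * X * X) ≤ 4 * (32 * R * Y * Y * Y) := by gcongr
  set U : ℝ := 4 * (32 * R * X * X * X)
  set V : ℝ := 4 * (32 * R * Y * Y * Y)
  have hU : 0 ≤ U := by positivity
  have hV : 0 ≤ V := by positivity
  refine mul_le_mul h5 ?_ (by positivity) (by positivity)
  calc |(m : ℝ) * (m + 1) / 2| * U + |(m : ℝ) * (m + 1) / 2| * (U + U) + |(m : ℝ) * (m - 1) / 2| * U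
      ≤ (m * (m + 1)) * V + (m * (m + 1)) * (V + V) + (m * (m + 1)) * V := by gcongr
    _ = _ := by ring

/-- The explicit long-time theorem. -/
theorem core {m : ℕ} (hm : 1 ≤ m) : ∃ C1 i1 i2 i3 : ℝ, 0 ≤ C1 ∧ 0 < i1 ∧ 0 < i2 ∧ 0 < i3 ∧
    ∀ R : ℝ, 1 ≤ R → ∀ z : ℂ, R⁻¹ ≤ ‖z‖ → ‖z‖ ≤ R → Prb.Gp d (m * ‖z‖ ^ (2 * m)) R⁻¹ →
    ∀ a : WA d k, coef a 0 = z → ∀ ε : ℝ, 0 < ε → ‖a - z • (1 : WA d k)‖ ≤ ε →
    ε * Lr m C1 i1 i2 i3 R ≤ 1 → ∀ T : ℝ, 0 ≤ T → T * ε ^ 2 * Lr m C1 i1 i2 i3 R ≤ 1 →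
    ∃ u : ℝ → WA d k, u 0 = a ∧ IsSolution d (2 * m + 1) k T (fun t => coef (u t)) := by
  obtain ⟨C1, hC1, δ1, hδ1, HC⟩ := fe_cubic' (d := d) (k := k) hm
  obtain ⟨r1, hr1, δ2, hδ2, HL⟩ := fe_lip' (d := d) (k := k) hm
  refine ⟨C1, δ1⁻¹, r1⁻¹, δ2⁻¹, hC1, inv_pos.2 hδ1, inv_pos.2 hr1, inv_pos.2 hδ2, ?_⟩
  intro R hR z hzl hzu hG a ha ε hε haε hεL T hT hTL
  have hR0 : 0 < R := by linarith
  have hz : z ≠ 0 := by
    intro h
    rw [h, norm_zero] at hzl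
    linarith [inv_pos.2 hR0]
  set r : ℝ := ‖z‖ with hr
  have hr0 : 0 < r := norm_pos_iff.2 hz
  have hrR : 1 ≤ r * R := by
    have := mul_le_mul_of_nonneg_right hzl hR0.le
    rwa [inv_mul_cancel₀ hR0.ne'] at this
  have hμ : 0 ≤ (m : ℝ) * r ^ (2 * m) := by positivity
  set μ : ℝ := (m : ℝ) * r ^ (2 * m) with hμdef
  set M : ℝ := Mr m R with hM
  have hμM : 2 * (2 + μ) ≤ M := by
    rw [hM, hμdef]
    unfold Mr
    gcongr
  have hM1 : 1 ≤ M := by linarith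
  have hM0 : 0 < M := by linarith
  set K : ℝ := Kr m R with hK
  have hK0 : 0 ≤ K := by
    rw [hK]
    unfold Kr
    positivity
  set C : ℝ := Cr m C1 R with hC
  have hC0 : 0 ≤ C := by
    rw [hC]
    unfold Cr
    rw [← hM]
    positivity
  set q : ℝ := qr m R with hq
  have hq0 : 0 ≤ q := by
    rw [hq]
    unfold qr
    positivity
  -- the requirements
  set L : ℝ := Lr m C1 δ1⁻¹ r1⁻¹ δ2⁻¹ R with hL
  have hLe : L = 1 + 4 * M * R * r1⁻¹ + R ^ 2 * δ1⁻¹ + R ^ 2 * δ2⁻¹ + 2 * M * R * δ1⁻¹ +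
      4 * M * R + 16 * (K + 1) + 4 * (M * C + 4 * K * M * (q * (2 * M) ^ 2 + C) + 1) := rfl
  have p1 : 0 ≤ 4 * M * R * r1⁻¹ := by positivity
  have p2 : 0 ≤ R ^ 2 * δ1⁻¹ := by positivity
  have p3 : 0 ≤ R ^ 2 * δ2⁻¹ := by positivity
  have p4 : 0 ≤ 2 * M * R * δ1⁻¹ := by positivity
  have p5 : 0 ≤ 4 * M * R := by positivity
  have p6 : 0 ≤ 16 * (K + 1) := by positivity
  have p7 : 0 ≤ 4 * (M * C + 4 * K * M * (q * (2 * M) ^ 2 + C) + 1) := by positivity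
  have use : ∀ x, x ≤ L → ε * x ≤ 1 := fun x hx =>
    (mul_le_mul_of_nonneg_left hx hε.le).trans hεL
  have hε1 : ε ≤ 1 := by
    have := use 1 (by linarith)
    linarith
  have c1 := use (4 * M * R * r1⁻¹) (by linarith)
  have c2 := use (R ^ 2 * δ1⁻¹) (by linarith)
  have c3 := use (R ^ 2 * δ2⁻¹) (by linarith)
  have c4 := use (2 * M * R * δ1⁻¹) (by linarith)
  have c5 := use (4 * M * R) (by linarith)
  have c6 := use (16 * (K + 1)) (by linarith)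
  have hTε : T * ε ^ 2 * (4 * (M * C + 4 * K * M * (q * (2 * M) ^ 2 + C) + 1)) ≤ 1 := by
    refine le_trans ?_ hTL
    gcongr
    linarith
  -- consequences
  have d1 : ε * (4 * M) ≤ r1 * R⁻¹ := by
    have : ε * (4 * M) * R ≤ r1 := by
      have e : ε * (4 * M) * R = (ε * (4 * M * R * r1⁻¹)) * r1 := by field_simp
      rw [e]
      exact mul_le_of_le_one_left hr1.le c1
    rw [← div_eq_mul_inv, le_div_iff₀ hR0]
    exact this
  have hr2 : R⁻¹ ^ 2 ≤ r ^ 2 := pow_le_pow_left₀ (inv_pos.2 hR0).le hzl 2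
  have hεsq : ε ^ 2 ≤ ε := by
    rw [sq]
    exact mul_le_of_le_one_right hε.le hε1
  have d2 : ε ≤ δ1 * r ^ 2 := by
    refine le_trans ?_ (mul_le_mul_of_nonneg_left hr2 hδ1.le)
    have e : ε = (ε * (R ^ 2 * δ1⁻¹)) * (δ1 * R⁻¹ ^ 2) := by field_simp
    rw [e]
    exact mul_le_of_le_one_left (by positivity) c2
  have d3 : ε ≤ δ2 * r ^ 2 := by
    refine le_trans ?_ (mul_le_mul_of_nonneg_left hr2 hδ2.le)
    have e : ε = (ε * (R ^ 2 * δ2⁻¹)) * (δ2 * R⁻¹ ^ 2) := by field_simp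
    rw [e]
    exact mul_le_of_le_one_left (by positivity) c3
  have d4 : 2 * M * ε ≤ δ1 * r := by
    refine le_trans ?_ (mul_le_mul_of_nonneg_left hzl hδ1.le)
    have e : 2 * M * ε = (ε * (2 * M * R * δ1⁻¹)) * (δ1 * R⁻¹) := by field_simp
    rw [e]
    exact mul_le_of_le_one_left (by positivity) c4
  have d5 : M * (2 * ε) ≤ r / 2 := by
    have e : M * (2 * ε) = (ε * (4 * M * R)) * (R⁻¹ / 2) := by field_simp; ring
    rw [e]
    calc (ε * (4 * M * R)) * (R⁻¹ / 2) ≤ 1 * (R⁻¹ / 2) := by gcongr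
      _ ≤ r / 2 := by rw [one_mul]; gcongr
  -- normalise the phase
  set ζ : ℂ := z / r with hζ
  have hrC : (r : ℂ) ≠ 0 := by exact_mod_cast hr0.ne'
  have hζn : ‖ζ‖ = 1 := by
    rw [hζ, norm_div, Complex.norm_real, Real.norm_of_nonneg hr0.le, ← hr, div_self hr0.ne']
  have hζ0 : ζ ≠ 0 := by
    intro h; rw [h] at hζn; simp at hζn
  have hζr : ζ * r = z := by rw [hζ]; field_simp
  set x₀ : WA d k := ζ⁻¹ • (a - z • 1) with hx₀
  have hx₀n : ‖x₀‖ = ‖a - z • (1 : WA d k)‖ := by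
    rw [hx₀, norm_smul, norm_inv, hζn, inv_one, one_mul]
  have hx₀0 : coef x₀ 0 = 0 := by
    rw [hx₀, coef_smul, coef_sub, coef_smul, coef_one, if_pos rfl, ha, mul_one, sub_self, mul_zero]
  have hε1' : ‖x₀‖ ≤ ε := by rw [hx₀n]; exact haε
  have he0 : 0 ≤ mass x₀ := mass_nonneg x₀
  have heε : mass x₀ ≤ ε ^ 2 := (mass_le x₀).trans (pow_le_pow_left₀ (norm_nonneg _) hε1' 2)
  have heη : mass x₀ ≤ ε := heε.trans hεsq
  have hLip : ∃ Lp : ℝ≥0, LipschitzOnWith Lp (fe m r (mass x₀) : WA d k → WA d k)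
      (closedBall 0 (r1 * R⁻¹)) := by
    obtain ⟨Lp, hLp⟩ := HL r hr0 _ he0 (heη.trans d3)
    exact ⟨Lp, hLp.mono (closedBall_subset_closedBall (by gcongr))⟩
  obtain ⟨y, hy0, hy⟩ := long_time2' (S k hμ) hM1 (fun t => (norm_S_le hμ t).trans hμM)
    (continuous_S hμ) (Qd m r : WA d k →L[ℝ] WA d k →L[ℝ] WA d k) (q := q) (K := K)
    ((norm_Qd_le' m r).trans (by
      rw [hq]
      unfold qr
      gcongr
      exact pow_pred_le hm hr0 hzu hR)) hK0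
    (fun t x y => (primBound' m r hμ (inv_pos.2 hR0) hG t x y).trans (by
      gcongr
      exact Kp_le hm hr0 hzu hR)) (C := C) (r0 := r1 * R⁻¹) hC0 (by positivity) hε hε1 d1 c6 hLip
    (fun x hx => by
      refine (HC r hr0 _ x he0 (heη.trans d2) (hx.trans d4)).trans ?_
      calc C1 * r ^ (2 * m - 2) * (‖x‖ ^ 3 + mass x₀ * ‖x‖)
          ≤ C1 * R ^ (2 * m) * ((2 * M * ε) ^ 3 + ε ^ 2 * (2 * M * ε)) := by
            gcongr
            exact pow_pred_le' hr0 hzu hR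
        _ = C * ε ^ 3 := by
            rw [hC]
            unfold Cr
            rw [← hM]
            ring) hε1' hT hTε
  have hyb : ∀ t ∈ Icc 0 T, ‖S k hμ t (y t)‖ ≤ r / 2 := by
    intro t ht
    calc ‖S k hμ t (y t)‖ ≤ ‖S k hμ t‖ * ‖y t‖ := (S k hμ t).le_opNorm _
      _ ≤ M * (2 * ε) := by
          gcongr
          · exact (norm_S_le hμ t).trans hμM
          · exact (hy t ht).2
      _ ≤ r / 2 := d5
  obtain ⟨v, hv0, hvc, hvn, hvd⟩ := recon hr0 hμ rfl hT (y := y) (by rw [hy0]; exact hx₀0)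
    (fun t ht => by rw [hy0]; exact (hy t ht).1) hyb
  obtain ⟨u, hu0, hu, -⟩ := gauge hT hvc hvd hvn ζ hζn
  refine ⟨u, ?_, hu⟩
  rw [hu0, hv0, hy0, hx₀, smul_add, smul_inv_smul₀ hζ0]
  ext n
  simp only [coef_add, coef_sub, coef_smul, coef_cst, coef_one]
  split_ifs
  · rw [hζr]; ring
  · ring

theorem qlong {m : ℕ} (hm : 1 ≤ m) : QLong d k m := by
  obtain ⟨C1, i1, i2, i3, hC1, hi1, hi2, hi3, H⟩ := core (d := d) (k := k) hm
  obtain ⟨A, hA, N, hAN⟩ := Pb_Lr m C1 i1 i2 i3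
  refine ⟨A + 1, by positivity, N, fun R hR z hz1 hz2 hG a ha h1 T hT h2 => ?_⟩
  have hR0 : 0 < R := by linarith
  have hP : 1 ≤ R ^ N := one_le_pow₀ hR
  have hL : Lr m C1 i1 i2 i3 R ≤ (A + 1) * R ^ N :=
    (le_abs_self _).trans ((hAN R hR).trans (by nlinarith))
  set B : ℝ := (A + 1) * R ^ N with hB
  have hB1 : 1 ≤ B := by nlinarith
  rcases (norm_nonneg (a - z • (1 : WA d k))).eq_or_lt with h0 | h0
  · refine H R hR z hz1 hz2 hG a ha (1 / ((T + 1) * B)) (by positivity) (by rw [← h0]; positivity)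
      ?_ T hT ?_
    · refine (mul_le_mul_of_nonneg_left hL (by positivity)).trans ?_
      rw [one_div, inv_mul_le_iff₀ (by positivity)]
      nlinarith
    · refine (mul_le_mul_of_nonneg_left hL (by positivity)).trans ?_
      have e : T * (1 / ((T + 1) * B)) ^ 2 * B = T / ((T + 1) ^ 2 * B) := by
        field_simp
      rw [e, div_le_one (by positivity)]
      nlinarith
  · exact H R hR z hz1 hz2 hG a ha _ h0 le_rfl
      ((mul_le_mul_of_nonneg_left hL h0.le).trans h1) T hT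
      ((mul_le_mul_of_nonneg_left hL (by positivity)).trans h2)

end Vale.Agent.P139.Q836
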