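import Vale.Agent.P139.Q836.Gz
import Vale.Agent.P139.Q836.QLong
import Vale.Agent.P139.Q836.QG1
import Vale.Agent.P139.Q836.QG2

/-! The probability of a short lifespan. -/

set_option autoImplicit false

open MeasureTheory ProbabilityTheory
open scoped ENNReal

namespace Vale.Agent.P139.Q836

open Vale.Agent.P139.A

/-- For every `θ < 1` the lifespan is shorter than `2 ^ (θ α)` with probability at most
`2 ^ (-κ α)`, for all large `α`. -/
theorem prob2 (d : ℕ) {p : ℕ} (hp : Odd p) (hp3 : 3 ≤ p) (k : ℕ) {θ : ℝ} (hθ : θ < 1) :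
    ∃ κ : ℝ, 0 < κ ∧ ∃ α₁ : ℝ, ∀ {Ω : Type} [MeasurableSpace Ω] (P : Measure Ω)
      (g : Lat d → Ω → ℂ), (∀ n, Measurable (g n)) → (∀ n, P.map (g n) = stdComplexGaussian) →
      ∀ α : ℝ, α₁ ≤ α →
        P {ω | lifespan d p k (datum g α ω) < ENNReal.ofReal ((2 : ℝ) ^ (θ * α))} ≤
          ENNReal.ofReal ((2 : ℝ) ^ (-(κ * α))) := by
  obtain ⟨m, rfl⟩ := hp
  have hm : 1 ≤ m := by omega
  exact prob_of (qlong hm) (qgz hm (qg1 d) (qg2 hm)) hθ

end Vale.Agent.P139.Q836
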